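import Vale.Agent.P153.R2.SDAD.Adapt

/-!
P153, block SDAD (helper435): the Schwinger-Dyson equations for all powers `j ≥ 0` of one test
function (`j = 0`: the mean is harmonic), and with arbitrary local densities `g1 g2 g3` in the arms
which satisfy one-arm bounds (no shields: these are included in the `g_i`).
-/

namespace Vale.Agent.P153.SDAD

open Finset Filter Topology MeasureTheory Complex
open Vale.Agent.P145.PT (Sm TestOn lap)
open Vale.Agent.P145.FA (SDdat int_lap)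
open Vale.Agent.P145.FA.Use (BM moments norm_expI expI_sub_one)
open Vale.Agent.P153 Vale.Agent.P153.F Vale.Agent.P153.F.SD
open Vale.Agent.P153.GFF (Csts pos var2)

variable {P : Measure Fld} {δ : ℕ → ℝ} {b : PW} {D : Set (ℝ × ℝ)}

/-- `useM` for all powers. -/
theorem useJ {X1 X2 X3 X : ℕ → Hgt → ℝ} (hP : GFF.Plane P) {A0 : ℝ} (hA0 : 0 ≤ A0)
    (hA : ∀ x : ℤ × ℤ, var2 P x ≤ A0 * (1 + |(x.1 : ℝ)| + |(x.2 : ℝ)|)) {κ : ℝ}
    (hclt : CLT P κ) (hδp : ∀ n, 0 < δ n) (hδ : Tendsto δ atTop (𝓝[>] 0))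
    (d : DatM P δ b D X1 X2 X3 X) {ψ f0 g : ℝ × ℝ → ℝ} (hψ : TestOn b.box ψ)
    (hf0 : TestOn b.box f0) (hg : TestOn D g)
    (hgK : ∀ x, g x ≠ 0 → x ∈ b.K1 ∨ x ∈ b.K2 ∨ x ∈ b.K3) (j : ℕ) :
    Tendsto (fun n => (∫ h, Lf (δ n) (lap ψ) h * Lf (δ n) (fun x => f0 x + g x) h ^ j *
        X n h ∂(muT P) +
      κ * j * (∫ x, ψ x * (f0 x + g x)) *
        ∫ h, Lf (δ n) (fun x => f0 x + g x) h ^ (j - 1) * X n h ∂(muT P)) /
          ∫ h, X n h ∂(muT P)) atTop (𝓝 0) := by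
  obtain ⟨Y1, Y2, Y3, Y, dd, hYX⟩ := (d.datE hδp hδ).dat
  have hf : TestOn D (fun x => f0 x + g x) := (hf0.mono d.hbD).add hg
  have hV : TestOn D (fun x => -lap ψ x) := (hψ.lap.neg).mono d.hbD
  have hfin : ∀ n, IsFiniteMeasure (MX P (Y n)) := fun n => MX_finite
  obtain ⟨_, kl⟩ := exists_csts hψ.lap.1 hψ.lap.2.1
  obtain ⟨_, kl'⟩ := exists_csts (hψ.lap.smul (-1)).1 (hψ.lap.smul (-1)).2.1
  set u : ℕ → ℝ := fun n => mass (Wd (δ n) (fun x => -lap ψ x) 0) with hu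
  set v : ℕ → ℝ := fun n => mass (Wd (δ n) (fun x => f0 x + g x) 0) with hv
  have hV0 : ∫ x, -lap ψ x = 0 := by rw [integral_neg, int_lap hψ.1 hψ.2.1, neg_zero]
  have hut : Tendsto u atTop (𝓝 0) := by
    have := mass_lim hV.1 hV.2.1 hδp hδ
    rwa [hV0] at this
  have hvt : Tendsto v atTop (𝓝 (∫ x, f0 x + g x)) := mass_lim hf.1 hf.2.1 hδp hδ
  have hub : ∀ᶠ n in atTop, |u n| ≤ 1 := by
    have := hut.abs
    rw [abs_zero] at this
    exact this.eventually (ge_mem_nhds one_pos)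
  have hvb : ∀ᶠ n in atTop, |v n| ≤ |∫ x, f0 x + g x| + 1 :=
    hvt.abs.eventually (ge_mem_nhds (by linarith))
  obtain ⟨C0, hC0, hmass⟩ := (dd.bm hV).2 0
  have hM : ∀ᶠ n in atTop, (MX P (Y n)).real Set.univ ≤ C0 := by
    filter_upwards [hmass] with n hn
    have := hn.2
    simp only [pow_zero, integral_const, smul_eq_mul, mul_one] at this
    exact this
  have h1 := moments (M := fun n => MX P (Y n))
    (U := fun n h => Lf (δ n) (fun x => -lap ψ x) h - u n)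
    (V := fun n h => Lf (δ n) (fun x => f0 x + g x) h - v n) (κ := κ) (p := ∫ x, ψ x * f0 x)
    (q := ∫ x, ψ x * (-lap ψ x)) (bm_shift (dd.bm hV) hub) (bm_shift (dd.bm hf) hvb)
    (fun s t => ?_) j
  · have h2 := h1.neg
    rw [neg_zero] at h2
    refine h2.congr' ?_
    filter_upwards [hYX, d.X_meas] with n hn hXm
    have e1 : ∀ h, Lf (δ n) (fun x => -lap ψ x) h - u n = - Lf (δ n) (lap ψ) (sh h) := by
      intro h
      have e2 : (fun x => -lap ψ x) = fun x => (-1) * lap ψ x := by funext x; ring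
      rw [hu]
      simp only
      rw [← Lf_sh]
      unfold Lf
      rw [e2, Wd_smul kl kl' (hδp n), ev_smul]
      ring
    have e1' : ∀ h, Lf (δ n) (fun x => f0 x + g x) h - v n =
        Lf (δ n) (fun x => f0 x + g x) (sh h) := fun h => (Lf_sh _ _ _).symm
    have e0 : ∀ h, Y n h = X n (sh h) := fun h => by rw [hn]
    rw [MX_int (dd.X_meas n) (dd.X_nonneg n), MX_int (dd.X_meas n) (dd.X_nonneg n), smul_eq_mul,
      smul_eq_mul]
    simp only [e1, e1', e0, smul_eq_mul]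
    have mL : ∀ f : ℝ × ℝ → ℝ, Measurable (Lf (δ n) f) := fun f => measurable_Lf _ _
    have mA : Measurable fun h => Lf (δ n) (fun x => f0 x + g x) h ^ (j - 1) * X n h :=
      ((mL _).pow_const _).mul hXm
    have mB : Measurable fun h => Lf (δ n) (lap ψ) h *
        Lf (δ n) (fun x => f0 x + g x) h ^ j * X n h :=
      ((mL _).mul ((mL _).pow_const _)).mul hXm
    rw [int_muT hXm.stronglyMeasurable, int_muT mA.stronglyMeasurable,
      int_muT mB.stronglyMeasurable]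
    have e3 : ∫ h, X n (sh h) * (-Lf (δ n) (lap ψ) (sh h) *
        Lf (δ n) (fun x => f0 x + g x) (sh h) ^ j) ∂(mu0 P) =
        - ∫ h, Lf (δ n) (lap ψ) (sh h) * Lf (δ n) (fun x => f0 x + g x) (sh h) ^ j *
        X n (sh h) ∂(mu0 P) := by
      rw [← integral_neg]
      refine integral_congr_ae (Eventually.of_forall fun h => ?_)
      simp only
      ring
    have e4 : ∫ h, X n (sh h) * Lf (δ n) (fun x => f0 x + g x) (sh h) ^ (j - 1) ∂(mu0 P) =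
        ∫ h, Lf (δ n) (fun x => f0 x + g x) (sh h) ^ (j - 1) * X n (sh h) ∂(mu0 P) := by
      refine integral_congr_ae (Eventually.of_forall fun h => ?_)
      simp only
      ring
    have e5 : ∫ x, ψ x * (f0 x + g x) = ∫ x, ψ x * f0 x := by
      refine integral_congr_ae (Eventually.of_forall fun x => ?_)
      simp only
      rw [mul_add, psi_g d.he hψ hgK, add_zero]
    rw [e3, e4, e5, add_div]
    ring
  · refine char_shift (fun n => measurable_Lf _ _) (fun n => measurable_Lf _ _) hut hM ?_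
    have h3 := char_lim hP hA0 hA hclt hδp hδ dd hψ hf0 hg hgK s t
    refine h3.congr fun n => ?_
    rw [MX_int (dd.X_meas n) (dd.X_nonneg n)]
    rw [← Complex.coe_smul, smul_eq_mul, div_eq_inv_mul]
    push_cast
    simp only [Complex.real_smul]

/-- The observable of the Schwinger-Dyson equation with the power `j`. -/
noncomputable def YJ (κ δ : ℝ) (ψ f : ℝ × ℝ → ℝ) (j : ℕ) (h : Hg) : ℝ :=
  Lf δ (lap ψ) h * Lf δ f h ^ j + κ * j * (∫ x, ψ x * f x) * Lf δ f h ^ (j - 1)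

/-- One arm, one mesh; `g` is local in `A`, with its conditional expectation (given the heights off
`A`) bounded by `C ν`. -/
structure ArmT (δ : ℝ) (K D : Set (ℝ × ℝ)) (A : Finset Pt) (g : Hg → ℝ) (ν C : ℝ) : Prop where
  nbK : ∀ x ∈ nbs A, x ∈ lat δ K
  AD : ∀ x ∈ A, δ • pos x ∉ D
  lg : Lc (A : Set Pt) g
  g0 : ∀ h, 0 ≤ g h
  ν0 : 0 < ν
  one : ∀ h, Lip h → ker A g h ≤ C * ν

theorem ArmT.mono {δ : ℝ} {K D : Set (ℝ × ℝ)} {A : Finset Pt} {g : Hg → ℝ} {ν C C' : ℝ}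
    (d : ArmT δ K D A g ν C) (h : C ≤ C') : ArmT δ K D A g ν C' :=
  ⟨d.nbK, d.AD, d.lg, d.g0, d.ν0, fun a ha =>
    (d.one a ha).trans (mul_le_mul_of_nonneg_right h d.ν0.le)⟩

theorem armD_of_T {K D : Set (ℝ × ℝ)} {A : ℕ → Finset Pt} {g : ℕ → Hg → ℝ} {ν : ℕ → ℝ} {C : ℝ}
    (h : ∀ᶠ n in atTop, ArmT (δ n) K D (A n) (g n) (ν n) C) :
    ArmD δ K D A g (fun _ _ => 1) ν C := by
  refine ⟨h.mono fun n h => h.nbK, h.mono fun n h => h.AD, h.mono fun n h => h.lg, ?_,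
    h.mono fun n h => h.g0, Eventually.of_forall fun n h => zero_le_one,
    h.mono fun n h => h.ν0, ?_⟩
  · exact Eventually.of_forall fun n => ⟨∅, by simp, fun _ _ _ => rfl⟩
  · filter_upwards [h] with n hn a ha
    rw [one_mul]
    exact hn.one a ha

/-- **Schwinger-Dyson equations with rare events in the arms, all powers.** -/
theorem adaptJ {A1 A2 A3 : ℕ → Finset Pt} {g1 g2 g3 : ℕ → Hg → ℝ} {ν1 ν2 ν3 : ℕ → ℝ} {C : ℝ}
    (hP : GFF.Plane P) {A0 : ℝ} (hA0 : 0 ≤ A0)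
    (hA : ∀ x : ℤ × ℤ, var2 P x ≤ A0 * (1 + |(x.1 : ℝ)| + |(x.2 : ℝ)|)) {κ : ℝ}
    (hclt : CLT P κ) (hδp : ∀ n, 0 < δ n) (hδ : Tendsto δ atTop (𝓝[>] 0))
    (hb : b.x0 + b.y0 < b.s0) (he : 0 < b.e) (hbD : b.box ⊆ D) (hC : 0 < C)
    (t1 : ∀ᶠ n in atTop, ArmT (δ n) b.K1 D (A1 n) (g1 n) (ν1 n) C)
    (t2 : ∀ᶠ n in atTop, ArmT (δ n) b.K2 D (A2 n) (g2 n) (ν2 n) C)
    (t3 : ∀ᶠ n in atTop, ArmT (δ n) b.K3 D (A3 n) (g3 n) (ν3 n) C)
    (hint : ∀ᶠ n in atTop, Integrable (fun h => g1 n h * g2 n h * g3 n h) (muT P))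
    (hpos : ∃ c0 : ℝ, 0 < c0 ∧ ∀ᶠ n in atTop, c0 * (ν1 n * ν2 n * ν3 n) ≤
      ∫ h, g1 n h * g2 n h * g3 n h ∂(muT P))
    (hmom : ∀ f, TestOn D f → ∀ k : ℕ, ∃ C : ℝ, ∀ᶠ n in atTop,
      Integrable (fun h => Lf (δ n) f h ^ (2 * k) * (g1 n h * g2 n h * g3 n h)) (muT P) ∧
      ∫ h, Lf (δ n) f h ^ (2 * k) * (g1 n h * g2 n h * g3 n h) ∂(muT P) ≤
        C * ∫ h, g1 n h * g2 n h * g3 n h ∂(muT P))
    (r1 : ∃ ρ : ℝ × ℝ → ℝ, TestOn (b.K1 ∩ D) ρ ∧ ∫ x, ρ x = 1)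
    (r3 : ∃ ρ : ℝ × ℝ → ℝ, TestOn (b.K3 ∩ D) ρ ∧ ∫ x, ρ x = 1)
    {ψ f0 g : ℝ × ℝ → ℝ} (hψ : TestOn b.box ψ)
    (hf0 : TestOn b.box f0) (hg : TestOn D g)
    (hgK : ∀ x, g x ≠ 0 → x ∈ b.K1 ∨ x ∈ b.K2 ∨ x ∈ b.K3) (j : ℕ) :
    Tendsto (fun n => (∫ h, Lf (δ n) (lap ψ) h * Lf (δ n) (fun x => f0 x + g x) h ^ j *
        (g1 n h * g2 n h * g3 n h) ∂(muT P) +
      κ * j * (∫ x, ψ x * (f0 x + g x)) *
        ∫ h, Lf (δ n) (fun x => f0 x + g x) h ^ (j - 1) * (g1 n h * g2 n h * g3 n h) ∂(muT P)) /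
          ∫ h, g1 n h * g2 n h * g3 n h ∂(muT P)) atTop (𝓝 0) := by
  have d1 := armD_of_T t1
  have d2 := armD_of_T t2
  have d3 := armD_of_T t3
  have eW : ∀ n h, WW (g1 n) (g2 n) (g3 n) (fun _ => 1) (fun _ => 1) (fun _ => 1) h =
      g1 n h * g2 n h * g3 n h := fun n h => by unfold WW; ring
  have hkey := key_int (b := b) hP he hC d1 d2 d3
  simp only [eW] at hkey
  -- local functions
  have hone : ∀ S : Set Pt, Lc S (fun _ => (1 : ℝ)) := fun S => ⟨∅, by simp, fun _ _ _ => rfl⟩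
  have hSD : ∀ᶠ n in atTop, ∀ x ∈ (A1 n : Set Pt) ∪ A2 n ∪ A3 n, δ n • pos x ∉ D := by
    filter_upwards [d1.AD, d2.AD, d3.AD] with n a1 a2 a3 x hx
    rcases hx with (hx | hx) | hx
    · exact a1 x hx
    · exact a2 x hx
    · exact a3 x hx
  have hpow : ∀ f, TestOn D f → ∀ k : ℕ, ∀ᶠ n in atTop,
      Lc ((A1 n : Set Pt) ∪ A2 n ∪ A3 n)ᶜ (fun h => Lf (δ n) f h ^ k) := by
    intro f hf k
    filter_upwards [hSD] with n hn
    obtain ⟨Λ, e1, e2⟩ := lf_loc (hδp n) hf hn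
    exact ⟨Λ, e1, fun h h' hh => by simp only [e2 h h' hh]⟩
  have dat : DatM P δ b D (fun n => XA (A1 n) (g1 n) (fun _ => 1) (C * ν1 n))
      (fun n => XA (A2 n) (g2 n) (fun _ => 1) (C * ν2 n))
      (fun n => XA (A3 n) (g3 n) (fun _ => 1) (C * ν3 n))
      (fun n h => XA (A1 n) (g1 n) (fun _ => 1) (C * ν1 n) h *
        XA (A2 n) (g2 n) (fun _ => 1) (C * ν2 n) h *
        XA (A3 n) (g3 n) (fun _ => 1) (C * ν3 n) h) := by
    refine ⟨hb, he, hbD, xa_loc d1, xa_loc d2, xa_loc d3, xa_nonneg d1 hC, xa_nonneg d2 hC,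
      xa_nonneg d3 hC, Eventually.of_forall fun n h => rfl, ?_, ?_, ?_, r1, r3⟩
    · filter_upwards [hkey, hint] with n h1 h2
      have := (h1 (fun _ => 1) (hone _)).1
      simp only [one_mul] at this
      exact this.2 h2
    · obtain ⟨c0, hc0, h0⟩ := hpos
      refine ⟨c0 / C ^ 3, by positivity, ?_⟩
      filter_upwards [hkey, h0, d1.ν0, d2.ν0, d3.ν0] with n h1 h2 q1 q2 q3
      have := (h1 (fun _ => 1) (hone _)).2
      simp only [one_mul] at this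
      rw [this]
      have h3 : (0 : ℝ) < C ^ 3 * (ν1 n * ν2 n * ν3 n) := by positivity
      rw [inv_mul_eq_div, le_div_iff₀ h3]
      calc c0 / C ^ 3 * (C ^ 3 * (ν1 n * ν2 n * ν3 n)) = c0 * (ν1 n * ν2 n * ν3 n) := by
            field_simp
        _ ≤ _ := h2
    · intro f hf k
      obtain ⟨C', hC'⟩ := hmom f hf k
      refine ⟨C', ?_⟩
      filter_upwards [hkey, hC', hpow f hf (2 * k), d1.ν0, d2.ν0, d3.ν0] with n h1 h2 h3 q1 q2 q3
      obtain ⟨e1, e2⟩ := h1 _ h3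
      have e3 := (h1 (fun _ => 1) (hone _)).2
      simp only [one_mul] at e3
      refine ⟨e1.2 h2.1, ?_⟩
      rw [e2, e3]
      have h5 : (0 : ℝ) ≤ (C ^ 3 * (ν1 n * ν2 n * ν3 n))⁻¹ := by positivity
      refine (mul_le_mul_of_nonneg_left h2.2 h5).trans (le_of_eq ?_)
      ring
  have hres := useJ hP hA0 hA hclt hδp hδ dat hψ hf0 hg hgK j
  refine hres.congr' ?_
  have hf : TestOn D (fun x => f0 x + g x) := (hf0.mono hbD).add hg
  have hψD : TestOn D (lap ψ) := hψ.lap.mono hbD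
  filter_upwards [hkey, hpow _ hf j, hpow _ hf (j - 1), hpow _ hψD 1, d1.ν0, d2.ν0, d3.ν0] with
    n h1 h2 h3 h4 q1 q2 q3
  simp only [pow_one] at h4
  have e1 := (h1 _ (h4.mul h2)).2
  have e2 := (h1 _ h3).2
  have e3 := (h1 (fun _ => 1) (hone _)).2
  simp only [one_mul] at e3
  rw [e1, e2, e3]
  have h5 : (0 : ℝ) < (C ^ 3 * (ν1 n * ν2 n * ν3 n))⁻¹ := by positivity
  have halg : ∀ r a b c d : ℝ, r ≠ 0 → (r * a + c * (r * b)) / (r * d) = (a + c * b) / d := by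
    intro r a b c d hr
    rw [show r * a + c * (r * b) = r * (a + c * b) by ring, mul_div_mul_left _ _ hr]
  exact halg _ _ _ _ _ h5.ne'

end Vale.Agent.P153.SDAD
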