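import Vale.Agent.P153.R2.SDAD.NoH
import Vale.Agent.P153.R2.SDAD.UseJ

/-!
P153, block SDAD (helper435): the Schwinger-Dyson equations (all powers `j ≥ 0`) under a density `G`
which is approximated from below, for every `ε`, by products `g1 g2 g3` of local functionals in the
three arms with one-arm bounds and a lower bound; uniform version.
-/

namespace Vale.Agent.P153.SDAD

open Finset Filter Topology MeasureTheory
open Vale.Agent.P145.PT (Sm TestOn lap)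
open Vale.Agent.P153 Vale.Agent.P153.F Vale.Agent.P153.F.SD
open Vale.Agent.P153.GFF (Csts pos var2)

/-- Square of the observable. -/
theorem sq_obsJ (a b c : ℝ) (j : ℕ) : (a * b ^ j + c * b ^ (j - 1)) ^ 2 ≤
    a ^ (2 * 2) + b ^ (2 * (2 * j)) + 2 * c ^ 2 * b ^ (2 * (j - 1)) := by
  have e1 : a ^ (2 * 2) = (a ^ 2) ^ 2 := by rw [← pow_mul]
  have e2 : b ^ (2 * (2 * j)) = (b ^ (2 * j)) ^ 2 := by rw [← pow_mul]; ring_nf
  have e3 : b ^ (2 * j) = (b ^ j) ^ 2 := by rw [← pow_mul]; ring_nf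
  have e4 : b ^ (2 * (j - 1)) = (b ^ (j - 1)) ^ 2 := by rw [← pow_mul]; ring_nf
  rw [e1, e2, e3, e4]
  have h1 := sq_nonneg (a * b ^ j - c * b ^ (j - 1))
  have h2 := sq_nonneg (a ^ 2 - (b ^ j) ^ 2)
  nlinarith

theorem int_domJ {μ : Measure Hg} {G W a b : Hg → ℝ} {j : ℕ} (b3 : ∀ h, 0 ≤ W h ∧ W h ≤ G h)
    (mW : Measurable W) (ma : Measurable a) (mb : Measurable b)
    (q1 : Integrable (fun h => a h ^ (2 * 2) * G h) μ)
    (q2 : Integrable (fun h => b h ^ (2 * (2 * j)) * G h) μ) (q3 : Integrable G μ) :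
    Integrable (fun h => a h * b h ^ j * W h) μ := by
  have i1 : Integrable (fun h => a h ^ (2 * 2) * G h + b h ^ (2 * (2 * j)) * G h + G h) μ :=
    (q1.add q2).add q3
  refine i1.mono' ((ma.mul (mb.pow_const _)).mul mW).aestronglyMeasurable
    (Eventually.of_forall fun h => ?_)
  have s1 := sq_obsJ (a h) (b h) 0 j
  have s2 : |a h * b h ^ j| ≤ a h ^ (2 * 2) + b h ^ (2 * (2 * j)) + 1 := by
    have s3 : |a h * b h ^ j| ≤ (a h * b h ^ j) ^ 2 + 1 := by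
      rcases abs_cases (a h * b h ^ j) with ⟨e, -⟩ | ⟨e, -⟩ <;> rw [e] <;>
        nlinarith [sq_nonneg (a h * b h ^ j - 1), sq_nonneg (a h * b h ^ j + 1),
          sq_nonneg (a h * b h ^ j)]
    have s5 : (a h * b h ^ j + 0 * b h ^ (j - 1)) ^ 2 = (a h * b h ^ j) ^ 2 := by ring
    have s6 : a h ^ (2 * 2) + b h ^ (2 * (2 * j)) + 2 * 0 ^ 2 * b h ^ (2 * (j - 1)) =
      a h ^ (2 * 2) + b h ^ (2 * (2 * j)) := by ring
    linarith
  obtain ⟨t1, t2⟩ := b3 h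
  rw [norm_mul, Real.norm_eq_abs, Real.norm_eq_abs, abs_of_nonneg t1]
  calc |a h * b h ^ j| * W h ≤ (a h ^ (2 * 2) + b h ^ (2 * (2 * j)) + 1) * G h :=
        mul_le_mul s2 t2 t1 ((abs_nonneg _).trans s2)
    _ = _ := by ring

/-- The second moment of the observable. -/
theorem sq_momJ {μ : Measure Hg} {G a b : Hg → ℝ} {c c1 c2 c3 : ℝ} {j : ℕ}
    (ma : Measurable a) (mb : Measurable b) (mG : Measurable G)
    (a1 : Integrable (fun h => a h ^ (2 * 2) * G h) μ ∧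
      ∫ h, a h ^ (2 * 2) * G h ∂μ ≤ c1 * ∫ h, G h ∂μ)
    (a2 : Integrable (fun h => b h ^ (2 * (2 * j)) * G h) μ ∧
      ∫ h, b h ^ (2 * (2 * j)) * G h ∂μ ≤ c2 * ∫ h, G h ∂μ)
    (a3 : Integrable (fun h => b h ^ (2 * (j - 1)) * G h) μ ∧
      ∫ h, b h ^ (2 * (j - 1)) * G h ∂μ ≤ c3 * ∫ h, G h ∂μ) (a6 : ∀ h, 0 ≤ G h) :
    Integrable (fun h => (a h * b h ^ j + c * b h ^ (j - 1)) ^ 2 * G h) μ ∧
      ∫ h, (a h * b h ^ j + c * b h ^ (j - 1)) ^ 2 * G h ∂μ ≤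
        (|c1| + |c2| + 2 * c ^ 2 * |c3|) * ∫ h, G h ∂μ := by
  have iB : Integrable (fun h => a h ^ (2 * 2) * G h + b h ^ (2 * (2 * j)) * G h +
      2 * c ^ 2 * (b h ^ (2 * (j - 1)) * G h)) μ := (a1.1.add a2.1).add (a3.1.const_mul _)
  have key : ∀ h, (a h * b h ^ j + c * b h ^ (j - 1)) ^ 2 * G h ≤ a h ^ (2 * 2) * G h +
      b h ^ (2 * (2 * j)) * G h + 2 * c ^ 2 * (b h ^ (2 * (j - 1)) * G h) := by
    intro h
    have := mul_le_mul_of_nonneg_right (sq_obsJ (a h) (b h) c j) (a6 h)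
    refine this.trans (le_of_eq ?_)
    ring
  have mY : Measurable fun h => a h * b h ^ j + c * b h ^ (j - 1) :=
    (ma.mul (mb.pow_const _)).add ((mb.pow_const _).const_mul _)
  have iY : Integrable (fun h => (a h * b h ^ j + c * b h ^ (j - 1)) ^ 2 * G h) μ := iB.mono'
    ((mY.pow_const 2).mul mG).aestronglyMeasurable (Eventually.of_forall fun h => by
      rw [Real.norm_eq_abs, abs_of_nonneg (mul_nonneg (sq_nonneg _) (a6 h))]
      exact key h)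
  refine ⟨iY, (integral_mono iY iB key).trans ?_⟩
  rw [int_add3 a1.1 a2.1 (a3.1.const_mul _), integral_const_mul]
  have hI : 0 ≤ ∫ h, G h ∂μ := integral_nonneg a6
  have b1 := a1.2.trans (mul_le_mul_of_nonneg_right (le_abs_self c1) hI)
  have b2 := a2.2.trans (mul_le_mul_of_nonneg_right (le_abs_self c2) hI)
  have b3 := a3.2.trans (mul_le_mul_of_nonneg_right (le_abs_self c3) hI)
  have b4 := mul_le_mul_of_nonneg_left b3 (show (0 : ℝ) ≤ 2 * c ^ 2 by positivity)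
  calc _ ≤ |c1| * (∫ h, G h ∂μ) + |c2| * (∫ h, G h ∂μ) +
      2 * c ^ 2 * (|c3| * ∫ h, G h ∂μ) := add_le_add (add_le_add b1 b2) b4
    _ = (|c1| + |c2| + 2 * c ^ 2 * |c3|) * ∫ h, G h ∂μ := by ring

/-- The data of an approximation: sets, functionals and masses for the three arms. -/
structure ApD where
  A1 : Finset Pt
  A2 : Finset Pt
  A3 : Finset Pt
  g1 : Hg → ℝ
  g2 : Hg → ℝ
  g3 : Hg → ℝ
  ν1 : ℝ
  ν2 : ℝ
  ν3 : ℝ

instance : Nonempty ApD := ⟨⟨∅, ∅, ∅, 0, 0, 0, 0, 0, 0⟩⟩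

/-- The density. -/
def ApD.W (t : ApD) (h : Hg) : ℝ := t.g1 h * t.g2 h * t.g3 h

/-- Approximation of the density `G` from below by a product over the three arms, up to `ε`. -/
structure ApP (P : Measure Fld) (δ : ℝ) (b : PW) (D : Set (ℝ × ℝ)) (G : Hg → ℝ) (C c0 ε : ℝ)
    (t : ApD) : Prop where
  a1 : ArmT δ b.K1 D t.A1 t.g1 t.ν1 C
  a2 : ArmT δ b.K2 D t.A2 t.g2 t.ν2 C
  a3 : ArmT δ b.K3 D t.A3 t.g3 t.ν3 C
  le : ∀ h, Lip h → t.W h ≤ G h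
  low : c0 * (t.ν1 * t.ν2 * t.ν3) ≤ ∫ h, t.W h ∂(muT P)
  dev : ∫ h, (G h - t.W h) ∂(muT P) ≤ ε * ∫ h, G h ∂(muT P)

/-- The sets `A_i`, the functionals `g_i` and the masses `ν_i` may depend on `ε`. -/
def ApproxS (P : Measure Fld) (δ : ℝ) (b : PW) (D : Set (ℝ × ℝ)) (G : Hg → ℝ) (C c0 ε : ℝ) :
    Prop := ∃ t : ApD, ApP P δ b D G C c0 ε t

variable {P : Measure Fld} {b : PW} {D : Set (ℝ × ℝ)}

/-- The moments, one mesh, with thresholds and constants depending on the test function. -/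
def MomT (P : Measure Fld) (D : Set (ℝ × ℝ)) (dm CM : (ℝ × ℝ → ℝ) → ℕ → ℝ) (δ : ℝ)
    (G : Hg → ℝ) : Prop :=
  ∀ f, TestOn D f → ∀ k : ℕ, δ ≤ dm f k →
    Integrable (fun h => Lf δ f h ^ (2 * k) * G h) (muT P) ∧
      ∫ h, Lf δ f h ^ (2 * k) * G h ∂(muT P) ≤ CM f k * ∫ h, G h ∂(muT P)

/-- The Schwinger-Dyson equations for a sequence of densities. -/
theorem adaptGJ {δ : ℕ → ℝ} {G : ℕ → Hg → ℝ} (hP : GFF.Plane P) {A0 : ℝ} (hA0 : 0 ≤ A0)
    (hA : ∀ x : ℤ × ℤ, var2 P x ≤ A0 * (1 + |(x.1 : ℝ)| + |(x.2 : ℝ)|)) {κ : ℝ}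
    (hclt : CLT P κ) (hδp : ∀ n, 0 < δ n) (hδ : Tendsto δ atTop (𝓝[>] 0))
    (hb : b.x0 + b.y0 < b.s0) (he : 0 < b.e) (hbD : b.box ⊆ D)
    (mG : ∀ n, Measurable (G n)) (hG0 : ∀ n h, 0 ≤ G n h)
    (hint : ∀ᶠ n in atTop, Integrable (G n) (muT P))
    (hsh : ∀ ε : ℝ, 0 < ε → ∃ C c0 : ℝ, 0 < C ∧ 0 < c0 ∧
      ∀ᶠ n in atTop, ApproxS P (δ n) b D (G n) C c0 ε)
    (hmom : ∀ f, TestOn D f → ∀ k : ℕ, ∃ C : ℝ, ∀ᶠ n in atTop,
      Integrable (fun h => Lf (δ n) f h ^ (2 * k) * G n h) (muT P) ∧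
      ∫ h, Lf (δ n) f h ^ (2 * k) * G n h ∂(muT P) ≤ C * ∫ h, G n h ∂(muT P))
    (r1 : ∃ ρ : ℝ × ℝ → ℝ, TestOn (b.K1 ∩ D) ρ ∧ ∫ x, ρ x = 1)
    (r3 : ∃ ρ : ℝ × ℝ → ℝ, TestOn (b.K3 ∩ D) ρ ∧ ∫ x, ρ x = 1)
    {ψ f0 g : ℝ × ℝ → ℝ} (hψ : TestOn b.box ψ)
    (hf0 : TestOn b.box f0) (hg : TestOn D g)
    (hgK : ∀ x, g x ≠ 0 → x ∈ b.K1 ∨ x ∈ b.K2 ∨ x ∈ b.K3) (j : ℕ) :
    Tendsto (fun n => (∫ h, YJ κ (δ n) ψ (fun x => f0 x + g x) j h * G n h ∂(muT P)) /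
      ∫ h, G n h ∂(muT P)) atTop (𝓝 0) := by
  classical
  have hLip : ∀ᵐ h ∂(muT P), Lip h := by
    have := hP.prob
    exact (gb_muT hP.lip hP.gibbs).lip
  have hf : TestOn D (fun x => f0 x + g x) := (hf0.mono hbD).add hg
  have hψD : TestOn D (lap ψ) := hψ.lap.mono hbD
  set c : ℝ := κ * j * (∫ x, ψ x * (f0 x + g x)) with hc
  set Y : ℕ → Hg → ℝ := fun n h => Lf (δ n) (lap ψ) h * Lf (δ n) (fun x => f0 x + g x) h ^ j +
    c * Lf (δ n) (fun x => f0 x + g x) h ^ (j - 1) with hY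
  have mL : ∀ n (f : ℝ × ℝ → ℝ), Measurable (Lf (δ n) f) := fun n f => measurable_Lf _ f
  have mY : ∀ n, Measurable (Y n) := fun n =>
    ((mL n _).mul ((mL n _).pow_const _)).add (((mL n _).pow_const _).const_mul _)
  obtain ⟨c1, m1⟩ := hmom (lap ψ) hψD 2
  obtain ⟨c2, m2⟩ := hmom _ hf (2 * j)
  obtain ⟨c3, m3⟩ := hmom _ hf (j - 1)
  set CY : ℝ := |c1| + |c2| + 2 * c ^ 2 * |c3| with hCY
  have hCY0 : 0 ≤ CY := by positivity
  have hYG : ∀ᶠ n in atTop, Integrable (fun h => Y n h ^ 2 * G n h) (muT P) ∧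
      ∫ h, Y n h ^ 2 * G n h ∂(muT P) ≤ CY * ∫ h, G n h ∂(muT P) := by
    filter_upwards [m1, m2, m3] with n a1 a2 a3
    exact sq_momJ (mL n _) (mL n _) (mG n) a1 a2 a3 (hG0 n)
  rw [Metric.tendsto_nhds]
  intro η hη
  obtain ⟨ε, hε, hε1, hε2⟩ : ∃ ε : ℝ, 0 < ε ∧ ε ≤ 1 / 2 ∧ √CY * √ε ≤ η / 2 := by
    have hc0 : 0 < η / (2 * (√CY + 1)) := by positivity
    refine ⟨min (1 / 2) ((η / (2 * (√CY + 1))) ^ 2), by positivity, min_le_left _ _, ?_⟩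
    have a1 : √(min (1 / 2) ((η / (2 * (√CY + 1))) ^ 2)) ≤ η / (2 * (√CY + 1)) := by
      refine Real.sqrt_le_iff.2 ⟨hc0.le, min_le_right _ _⟩
    calc √CY * √(min (1 / 2) ((η / (2 * (√CY + 1))) ^ 2)) ≤
        √CY * (η / (2 * (√CY + 1))) := mul_le_mul_of_nonneg_left a1 (Real.sqrt_nonneg _)
      _ ≤ (√CY + 1) * (η / (2 * (√CY + 1))) :=
          mul_le_mul_of_nonneg_right (by linarith) hc0.le
      _ = η / 2 := by
          have : √CY + 1 ≠ 0 := by positivity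
          field_simp
  obtain ⟨C, c0, hC, hc0, hap⟩ := hsh ε hε
  -- choice of the data
  obtain ⟨t, key⟩ := Filter.skolem.1 hap
  set W : ℕ → Hg → ℝ := fun n => (t n).W with hW
  have mW : ∀ᶠ n in atTop, Measurable (W n) := by
    filter_upwards [key] with n hn
    exact (hn.a1.lg.measurable.mul hn.a2.lg.measurable).mul hn.a3.lg.measurable
  -- the truncated density, below `G` everywhere
  set V : ℕ → Hg → ℝ := fun n h => min (W n h) (G n h) with hV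
  have hW0 : ∀ᶠ n in atTop, ∀ h, 0 ≤ W n h := by
    filter_upwards [key] with n hn h
    exact mul_nonneg (mul_nonneg (hn.a1.g0 h) (hn.a2.g0 h)) (hn.a3.g0 h)
  have hVW : ∀ᶠ n in atTop, V n =ᵐ[muT P] W n := by
    filter_upwards [key] with n hn
    filter_upwards [hLip] with h hh
    exact min_eq_left (hn.le h hh)
  have hVG : ∀ᶠ n in atTop, ∀ h, 0 ≤ V n h ∧ V n h ≤ G n h := by
    filter_upwards [hW0] with n hn h
    exact ⟨le_min (hn h) (hG0 n h), min_le_right _ _⟩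
  have mV : ∀ᶠ n in atTop, Measurable (V n) := by
    filter_upwards [mW] with n hn
    exact hn.min (mG n)
  have iV : ∀ᶠ n in atTop, Integrable (V n) (muT P) := by
    filter_upwards [hint, hVG, mV] with n a1 a2 a3
    exact a1.mono' a3.aestronglyMeasurable (Eventually.of_forall fun h => by
      rw [Real.norm_eq_abs, abs_of_nonneg (a2 h).1]; exact (a2 h).2)
  have iW : ∀ᶠ n in atTop, Integrable (W n) (muT P) := by
    filter_upwards [iV, hVW] with n a1 a2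
    exact a1.congr a2
  have hintV : ∀ᶠ n in atTop, ∀ F : Hg → ℝ, ∫ h, F h * V n h ∂(muT P) =
      ∫ h, F h * W n h ∂(muT P) := by
    filter_upwards [hVW] with n hn F
    refine integral_congr_ae ?_
    filter_upwards [hn] with h hh
    simp only [hh]
  have hV1 : ∀ᶠ n in atTop, ∫ h, V n h ∂(muT P) = ∫ h, W n h ∂(muT P) := by
    filter_upwards [hVW] with n hn
    exact integral_congr_ae hn
  have hWp : ∀ᶠ n in atTop, 0 < ∫ h, W n h ∂(muT P) := by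
    filter_upwards [key] with n hn
    have := hn.a1.ν0
    have := hn.a2.ν0
    have := hn.a3.ν0
    exact lt_of_lt_of_le (by positivity) hn.low
  have hd : ∀ᶠ n in atTop, ∫ h, (G n h - V n h) ∂(muT P) ≤ ε * ∫ h, G n h ∂(muT P) := by
    filter_upwards [key, hVW] with n hn hn2
    refine le_trans (le_of_eq ?_) hn.dev
    refine integral_congr_ae ?_
    filter_upwards [hn2] with h hh
    rw [hh]
  have hGW : ∀ᶠ n in atTop, ∫ h, G n h ∂(muT P) ≤ 2 * ∫ h, W n h ∂(muT P) := by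
    filter_upwards [hd, hint, iV, hV1] with n a1 a2 a3 a4
    rw [integral_sub a2 a3, a4] at a1
    have hI : 0 ≤ ∫ h, G n h ∂(muT P) := integral_nonneg (hG0 n)
    have h2 : ε * ∫ h, G n h ∂(muT P) ≤ 1 / 2 * ∫ h, G n h ∂(muT P) :=
      mul_le_mul_of_nonneg_right hε1 hI
    linarith
  have hres := adaptJ hP hA0 hA hclt hδp hδ hb he hbD hC (key.mono fun n h => h.a1)
    (key.mono fun n h => h.a2) (key.mono fun n h => h.a3) iW
    ⟨c0, hc0, key.mono fun n h => h.low⟩ (fun f hf k => ?_) r1 r3 hψ hf0 hg hgK j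
  · have h2 := hres.abs
    rw [abs_zero] at h2
    have h3 := (Metric.tendsto_nhds.1 h2) (η / 2) (by positivity)
    filter_upwards [h3, hYG, hVG, mV, hint, hd, hWp, hintV, hV1, m1, m2, m3] with
      n b1 b2 b3 b4 b6 b7 b8 b9 b10 q1 q2 q3
    rw [Real.dist_eq, sub_zero, abs_abs] at b1
    have h4 := cmp_weights (μ := muT P) (G := G n) (W := V n) (Y := Y n) (fun h => (b3 h).1)
      (fun h => (b3 h).2) (mG n) b4 (mY n) b6 b2.1 hε.le hCY0 b7 b2.2 (by rw [b10]; exact b8)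
    rw [Real.dist_eq, sub_zero]
    have h5 : (fun h => YJ κ (δ n) ψ (fun x => f0 x + g x) j h * G n h) =
        fun h => Y n h * G n h := by
      funext h
      simp only [YJ, hY, hc]
    rw [h5]
    refine lt_of_le_of_lt h4 ?_
    have e1 : (∫ h, Y n h * V n h ∂(muT P)) / ∫ h, V n h ∂(muT P) =
        (∫ h, Lf (δ n) (lap ψ) h * Lf (δ n) (fun x => f0 x + g x) h ^ j *
        ((t n).g1 h * (t n).g2 h * (t n).g3 h) ∂(muT P) +
      κ * j * (∫ x, ψ x * (f0 x + g x)) *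
        ∫ h, Lf (δ n) (fun x => f0 x + g x) h ^ (j - 1) *
          ((t n).g1 h * (t n).g2 h * (t n).g3 h) ∂(muT P)) /
          ∫ h, (t n).g1 h * (t n).g2 h * (t n).g3 h ∂(muT P) := by
      rw [b10]
      congr 1
      have e2 := b9 (fun h => Lf (δ n) (lap ψ) h * Lf (δ n) (fun x => f0 x + g x) h ^ j)
      have e3 := b9 (fun h => Lf (δ n) (fun x => f0 x + g x) h ^ (j - 1))
      have e2' : ∫ h, Lf (δ n) (lap ψ) h * Lf (δ n) (fun x => f0 x + g x) h ^ j *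
        ((t n).g1 h * (t n).g2 h * (t n).g3 h) ∂(muT P) =
        ∫ h, Lf (δ n) (lap ψ) h * Lf (δ n) (fun x => f0 x + g x) h ^ j * V n h ∂(muT P) := e2.symm
      have e3' : ∫ h, Lf (δ n) (fun x => f0 x + g x) h ^ (j - 1) *
          ((t n).g1 h * (t n).g2 h * (t n).g3 h) ∂(muT P) =
        ∫ h, Lf (δ n) (fun x => f0 x + g x) h ^ (j - 1) * V n h ∂(muT P) := e3.symm
      rw [e2', e3', ← integral_const_mul, ← integral_add]
      · refine integral_congr_ae (Eventually.of_forall fun h => ?_)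
        simp only [hY]
        ring
      · exact int_domJ b3 b4 (mL n _) (mL n _) q1.1 q2.1 b6
      · exact (int_dom2 b3 b4 (mL n _) q3.1 b6).const_mul _
    rw [e1]
    linarith
  · obtain ⟨C1, hC1⟩ := hmom f hf k
    refine ⟨2 * |C1|, ?_⟩
    filter_upwards [hC1, hVG, mV, hGW, hVW, hV1] with n a1 a2 a3 a4 a5 a6
    have hk : ∀ h, 0 ≤ Lf (δ n) f h ^ (2 * k) := fun h => Even.pow_nonneg (even_two_mul k) _
    have iL : Integrable (fun h => Lf (δ n) f h ^ (2 * k) * V n h) (muT P) :=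
      a1.1.mono' (((mL n _).pow_const _).mul a3).aestronglyMeasurable
        (Eventually.of_forall fun h => by
          rw [Real.norm_eq_abs, abs_of_nonneg (mul_nonneg (hk h) (a2 h).1)]
          exact mul_le_mul_of_nonneg_left (a2 h).2 (hk h))
    have eL : (fun h => Lf (δ n) f h ^ (2 * k) * V n h) =ᵐ[muT P]
        fun h => Lf (δ n) f h ^ (2 * k) * ((t n).g1 h * (t n).g2 h * (t n).g3 h) := by
      filter_upwards [a5] with h hh
      show _ = Lf (δ n) f h ^ (2 * k) * W n h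
      rw [hh]
    refine ⟨iL.congr eL, ?_⟩
    rw [← integral_congr_ae eL]
    have hI : 0 ≤ ∫ h, G n h ∂(muT P) := integral_nonneg (hG0 n)
    calc ∫ h, Lf (δ n) f h ^ (2 * k) * V n h ∂(muT P) ≤
        ∫ h, Lf (δ n) f h ^ (2 * k) * G n h ∂(muT P) :=
          integral_mono iL a1.1 fun h => mul_le_mul_of_nonneg_left (a2 h).2 (hk h)
      _ ≤ C1 * ∫ h, G n h ∂(muT P) := a1.2
      _ ≤ |C1| * ∫ h, G n h ∂(muT P) := mul_le_mul_of_nonneg_right (le_abs_self _) hI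
      _ ≤ |C1| * (2 * ∫ h, W n h ∂(muT P)) := mul_le_mul_of_nonneg_left a4 (abs_nonneg _)
      _ = 2 * |C1| * ∫ h, W n h ∂(muT P) := by ring

/-- **Uniform Schwinger-Dyson equations under a density `G`, all powers `j ≥ 0`.** `C ε`, `c0 ε`,
`ds ε` are the constants and the threshold for the approximation of deficit `ε`; `dm f k`, `CM f k`
the thresholds and constants of the moments. -/
theorem adaptUJ (hP : GFF.Plane P) {A0 : ℝ} (hA0 : 0 ≤ A0)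
    (hA : ∀ x : ℤ × ℤ, var2 P x ≤ A0 * (1 + |(x.1 : ℝ)| + |(x.2 : ℝ)|)) {κ : ℝ}
    (hclt : CLT P κ) (hb : b.x0 + b.y0 < b.s0) (he : 0 < b.e) (hbD : b.box ⊆ D)
    {C c0 ds : ℝ → ℝ} (hC : ∀ ε, 0 < ε → 0 < C ε) (hc0 : ∀ ε, 0 < ε → 0 < c0 ε)
    (hds : ∀ ε, 0 < ε → 0 < ds ε) {dm CM : (ℝ × ℝ → ℝ) → ℕ → ℝ} (hdm : ∀ f k, 0 < dm f k)
    (r1 : ∃ ρ : ℝ × ℝ → ℝ, TestOn (b.K1 ∩ D) ρ ∧ ∫ x, ρ x = 1)
    (r3 : ∃ ρ : ℝ × ℝ → ℝ, TestOn (b.K3 ∩ D) ρ ∧ ∫ x, ρ x = 1)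
    {ψ f0 g : ℝ × ℝ → ℝ} (hψ : TestOn b.box ψ)
    (hf0 : TestOn b.box f0) (hg : TestOn D g)
    (hgK : ∀ x, g x ≠ 0 → x ∈ b.K1 ∨ x ∈ b.K2 ∨ x ∈ b.K3) (j : ℕ) {η : ℝ} (hη : 0 < η) :
    ∃ δ₀ : ℝ, 0 < δ₀ ∧ ∀ δ : ℝ, 0 < δ → δ < δ₀ → ∀ G : Hg → ℝ, Measurable G → (∀ h, 0 ≤ G h) →
      Integrable G (muT P) →
      (∀ ε : ℝ, 0 < ε → δ ≤ ds ε → ApproxS P δ b D G (C ε) (c0 ε) ε) →
      MomT P D dm CM δ G →
      |∫ h, YJ κ δ ψ (fun x => f0 x + g x) j h * G h ∂(muT P)| ≤ η * ∫ h, G h ∂(muT P) := by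
  by_contra hcon
  push Not at hcon
  choose δ h1 h2 G mG hG0 h3 h4 h5 h6 using
    fun n : ℕ => hcon (1 / ((n : ℝ) + 1)) (by positivity)
  have hδ0 : Tendsto δ atTop (𝓝 0) := squeeze_zero (fun n => (h1 n).le) (fun n => (h2 n).le)
    tendsto_one_div_add_atTop_nhds_zero_nat
  have hδ : Tendsto δ atTop (𝓝[>] 0) := tendsto_nhdsWithin_iff.2 ⟨hδ0,
    Eventually.of_forall fun n => h1 n⟩
  have hsmall : ∀ r : ℝ, 0 < r → ∀ᶠ n in atTop, δ n ≤ r := fun r hr =>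
    hδ0.eventually (ge_mem_nhds hr)
  have hres := adaptGJ (G := G) hP hA0 hA hclt h1 hδ hb he hbD mG hG0 (Eventually.of_forall h3)
    (fun ε hε => ⟨C ε, c0 ε, hC ε hε, hc0 ε hε,
      (hsmall _ (hds ε hε)).mono fun n hn => h4 n ε hε hn⟩)
    (fun f hf k => ⟨CM f k, (hsmall _ (hdm f k)).mono fun n hn => h5 n f hf k hn⟩)
    r1 r3 hψ hf0 hg hgK j
  obtain ⟨n, hn, hn1⟩ := (((Metric.tendsto_nhds.1 hres) η hη).and
    (hsmall _ (hds 1 one_pos))).exists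
  rw [Real.dist_eq, sub_zero] at hn
  obtain ⟨t, ht⟩ := h4 n 1 one_pos hn1
  have hLip : ∀ᵐ h ∂(muT P), Lip h := by
    have := hP.prob
    exact (gb_muT hP.lip hP.gibbs).lip
  have hpos : 0 < ∫ h, G n h ∂(muT P) := by
    have := ht.a1.ν0
    have := ht.a2.ν0
    have := ht.a3.ν0
    have hc := hc0 1 one_pos
    have hlt : 0 < ∫ h, t.W h ∂(muT P) := lt_of_lt_of_le (by positivity) ht.low
    refine lt_of_lt_of_le hlt ?_
    refine integral_mono_of_nonneg (Eventually.of_forall fun h => ?_) (h3 n) ?_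
    · exact mul_nonneg (mul_nonneg (ht.a1.g0 h) (ht.a2.g0 h)) (ht.a3.g0 h)
    · filter_upwards [hLip] with h hh
      exact ht.le h hh
  rw [abs_div, abs_of_pos hpos, div_lt_iff₀ hpos] at hn
  exact absurd (h6 n) (not_lt.2 hn.le)

end Vale.Agent.P153.SDAD
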