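import Vale.Agent.P153.Bd5.B9

/-!
P153, block SDAD (helper435): the conditional expectation of a functional of the heights on a finite
set `L`, given the heights off `L`, as an explicit local functional (kernel `ker`), for the
(infinite) Gibbs measures `Gb mu` of absolute heights.
-/

namespace Vale.Agent.P153.SDAD

open Finset MeasureTheory Vale.Agent.P153 Vale.Agent.P153.F

/-- Patterns on `L` (with the dummy value `1` off `L`) which fit to the heights `h` off `L`. -/
def Pat (L : Finset Pt) (h : Hg) : Set Hg :=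
  {p | (∀ x, x ∉ L → p x = 1) ∧ (∀ x ∈ L, Odd (p x)) ∧
    ∀ x ∈ L, ∀ y, Adj x y → |p x - comb (L : Set Pt) p h y| ≤ 2}

/-- The expectation of `g` given the heights off `L`. -/
noncomputable def ker (L : Finset Pt) (g : Hg → ℝ) (h : Hg) : ℝ :=
  (∑ᶠ p ∈ Pat L h, g (comb (L : Set Pt) p h)) / ((Pat L h).ncard : ℝ)

/-- The outer boundary of `L`. -/
def bd (L : Finset Pt) : Set Pt := {y | y ∉ L ∧ ∃ x ∈ L, Adj x y}

/-- The six neighbours. -/
def nb (x : Pt) : Finset Pt := {(x.1 + 1, x.2), (x.1 - 1, x.2), (x.1, x.2 + 1), (x.1, x.2 - 1),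
  (x.1 + 1, x.2 - 1), (x.1 - 1, x.2 + 1)}

theorem mem_nb {x y : Pt} (h : Adj x y) : y ∈ nb x := by
  rw [Fv.adj_iff] at h
  simp only [nb, Finset.mem_insert, Finset.mem_singleton, Prod.ext_iff]
  omega

/-- `L` together with its neighbours. -/
def nbs (L : Finset Pt) : Finset Pt := L ∪ L.biUnion nb

theorem bd_nbs {L : Finset Pt} {y : Pt} (h : y ∈ bd L) : y ∈ nbs L := by
  obtain ⟨-, x, hx, hxy⟩ := h
  exact Finset.mem_union_right _ (Finset.mem_biUnion.2 ⟨x, hx, mem_nb hxy⟩)

theorem adj_nbs {L : Finset Pt} {x y : Pt} (hx : x ∈ L) (h : Adj x y) : y ∈ nbs L :=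
  Finset.mem_union_right _ (Finset.mem_biUnion.2 ⟨x, hx, mem_nb h⟩)

variable {L : Finset Pt} {h h' : Hg} {g : Hg → ℝ}

theorem pat_congr (hh : ∀ x ∈ bd L, h x = h' x) : Pat L h = Pat L h' := by
  have key : ∀ (h h' : Hg), (∀ x ∈ bd L, h x = h' x) → Pat L h ⊆ Pat L h' := by
    rintro h h' hh p ⟨h1, h2, h3⟩
    refine ⟨h1, h2, fun x hx y hxy => ?_⟩
    have h4 := h3 x hx y hxy
    by_cases hy : y ∈ (L : Set Pt)
    · rwa [comb_in hy] at h4 ⊢
    · rw [comb_out hy] at h4 ⊢
      rwa [← hh y ⟨hy, x, hx, hxy⟩]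
  exact (key h h' hh).antisymm (key h' h fun x hx => (hh x hx).symm)

theorem comb_agree {p : Hg} {x : Pt} (hx : x ∈ (L : Set Pt)) :
    comb (L : Set Pt) p h x = comb (L : Set Pt) p h' x := by
  rw [comb_in hx, comb_in hx]

/-- The kernel depends only on the heights of the outer boundary. -/
theorem ker_congr (hg : ∀ a b : Hg, (∀ x ∈ L, a x = b x) → g a = g b)
    (hh : ∀ x ∈ bd L, h x = h' x) : ker L g h = ker L g h' := by
  unfold ker
  rw [pat_congr hh]
  congr 1
  refine finsum_congr fun p => finsum_congr fun _ => ?_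
  exact hg _ _ fun x hx => comb_agree hx

/-- The kernel for a functional depending also on the heights off `L`. -/
theorem ker_congr' (hg : ∀ a b : Hg, (∀ x ∈ L, a x = b x) → (∀ x, x ∉ L → a x = h x) →
    (∀ x, x ∉ L → b x = h' x) → g a = g b)
    (hh : ∀ x ∈ bd L, h x = h' x) : ker L g h = ker L g h' := by
  unfold ker
  rw [pat_congr hh]
  congr 1
  refine finsum_congr fun p => finsum_congr fun _ => ?_
  exact hg _ _ (fun x hx => comb_agree hx) (fun x hx => comb_out hx) (fun x hx => comb_out hx)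

theorem ker_nonneg (hg : ∀ a, 0 ≤ g a) (h : Hg) : 0 ≤ ker L g h := by
  unfold ker
  refine div_nonneg ?_ (by positivity)
  exact finsum_nonneg fun p => finsum_nonneg fun _ => hg _

/-- Patterns and frozen configurations. -/
theorem bij_pat (hh : Lip h) :
    Set.BijOn (fun p => comb (L : Set Pt) p h) (Pat L h) (Fz L h) := by
  refine ⟨?_, ?_, ?_⟩
  · rintro p ⟨h1, h2, h3⟩
    refine ⟨⟨fun x => ?_, fun x y hxy => ?_⟩, fun x hx => comb_out hx⟩
    · by_cases hx : x ∈ (L : Set Pt)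
      · simp only [comb_in hx]; exact h2 x hx
      · simp only [comb_out hx]; exact hh.1 x
    · by_cases hx : x ∈ (L : Set Pt)
      · have := h3 x hx y hxy
        simp only
        rwa [comb_in hx]
      · by_cases hy : y ∈ (L : Set Pt)
        · have := h3 y hy x hxy.symm
          simp only
          rw [abs_sub_comm, comb_in hy]
          exact this
        · simp only
          rw [comb_out hx, comb_out hy]
          exact hh.2 x y hxy
  · rintro p ⟨h1, -, -⟩ p' ⟨h1', -, -⟩ e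
    funext x
    by_cases hx : x ∈ (L : Set Pt)
    · have := congrFun e x
      simp only at this
      rwa [comb_in hx, comb_in hx] at this
    · rw [h1 x hx, h1' x hx]
  · rintro a ⟨h1, h2⟩
    refine ⟨comb (L : Set Pt) a (fun _ => 1), ⟨fun x hx => comb_out hx, fun x hx => ?_,
      fun x hx y hxy => ?_⟩, ?_⟩
    · have hx' : x ∈ (L : Set Pt) := hx
      rw [comb_in hx']; exact h1.1 x
    · have hx' : x ∈ (L : Set Pt) := hx
      rw [comb_in hx']
      by_cases hy : y ∈ (L : Set Pt)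
      · rw [comb_in hy, comb_in hy]; exact h1.2 x y hxy
      · rw [comb_out hy, ← h2 y hy]; exact h1.2 x y hxy
    · funext x
      by_cases hx : x ∈ (L : Set Pt)
      · simp only [comb_in hx]
      · simp only [comb_out hx, h2 x hx]

/-- The frozen configurations. -/
noncomputable def FzF (L : Finset Pt) (h : Hg) : Finset Hg := (finite_fz L h).toFinset

theorem mem_FzF {a : Hg} : a ∈ FzF L h ↔ Lip a ∧ ∀ x, x ∉ L → a x = h x := by
  rw [FzF, Set.Finite.mem_toFinset]; rfl

theorem self_mem_FzF (hh : Lip h) : h ∈ FzF L h := mem_FzF.2 ⟨hh, fun _ _ => rfl⟩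

theorem card_FzF_pos (hh : Lip h) : 0 < #(FzF L h) := Finset.card_pos.2 ⟨h, self_mem_FzF hh⟩

theorem ker_eq (hh : Lip h) : ker L g h = (∑ a ∈ FzF L h, g a) / (#(FzF L h) : ℝ) := by
  have hb := bij_pat (L := L) hh
  have e1 : ∑ᶠ p ∈ Pat L h, g (comb (L : Set Pt) p h) = ∑ᶠ a ∈ Fz L h, g a :=
    finsum_mem_eq_of_bijOn (fun p => comb (L : Set Pt) p h) hb fun p _ => rfl
  have e2 : (Pat L h).ncard = (Fz L h).ncard := by
    rw [← hb.image_eq, hb.injOn.ncard_image]
  unfold ker
  rw [e1, e2, finsum_mem_eq_finite_toFinset_sum _ (finite_fz L h),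
    Set.ncard_eq_toFinset_card _ (finite_fz L h)]
  rfl

theorem FzF_congr (hh : ∀ x, x ∉ L → h x = h' x) : FzF L h = FzF L h' := by
  ext a
  rw [mem_FzF, mem_FzF]
  constructor
  · rintro ⟨h1, h2⟩
    exact ⟨h1, fun x hx => by rw [h2 x hx, hh x hx]⟩
  · rintro ⟨h1, h2⟩
    exact ⟨h1, fun x hx => by rw [h2 x hx, hh x hx]⟩

/-- For Lipschitz heights the kernel depends only on the heights off `L`. -/
theorem ker_of_mem (hh : Lip h) {a : Hg} (ha : a ∈ FzF L h) : ker L g a = ker L g h := by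
  obtain ⟨h1, h2⟩ := mem_FzF.1 ha
  rw [ker_eq hh, ker_eq h1, FzF_congr h2]

/-- One frozen pattern, nonnegative functions. -/
theorem lintegral_cyl {mu : Measure Hg} (hmu : Gb mu) {L B : Finset Pt}
    (hLB : L ⊆ B) (hN : ∀ x ∈ L, ∀ y, Adj x y → y ∈ B) {ξ : Hg} (hξ : Lip ξ) (f : Hg → ENNReal)
    (hf : ∀ h h' : Hg, (∀ x ∈ B, h x = h' x) → f h = f h') :
    ∫⁻ h in Cyl (B \ L) ξ, f h ∂mu = mu (Cyl B ξ) * ∑ a ∈ FzF L ξ, f a := by
  classical
  have hae : (Cyl (B \ L) ξ : Set Hg) =ᵐ[mu] ⋃ a ∈ FzF L ξ, Cyl B a := by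
    filter_upwards [hmu.lip] with h hh
    apply propext
    constructor
    · intro hc
      have hc' : ∀ x ∈ B \ L, h x = ξ x := hc
      have hg : comb (L : Set Pt) h ξ ∈ FzF L ξ := by
        rw [mem_FzF]
        refine ⟨⟨fun x => ?_, fun x y hxy => ?_⟩, fun x hx => comb_out hx⟩
        · by_cases hx : x ∈ (L : Set Pt)
          · rw [comb_in hx]; exact hh.1 x
          · rw [comb_out hx]; exact hξ.1 x
        · have key : ∀ x y, Adj x y → x ∈ (L : Set Pt) → y ∉ (L : Set Pt) → |h x - ξ y| ≤ 2 := by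
            intro x y hxy hx hy
            rw [← hc' y (Finset.mem_sdiff.2 ⟨hN x hx y hxy, hy⟩)]
            exact hh.2 x y hxy
          by_cases hx : x ∈ (L : Set Pt) <;> by_cases hy : y ∈ (L : Set Pt)
          · rw [comb_in hx, comb_in hy]; exact hh.2 x y hxy
          · rw [comb_in hx, comb_out hy]; exact key x y hxy hx hy
          · rw [comb_out hx, comb_in hy, abs_sub_comm]; exact key y x hxy.symm hy hx
          · rw [comb_out hx, comb_out hy]; exact hξ.2 x y hxy
      have hm : h ∈ ⋃ a ∈ FzF L ξ, Cyl B a := by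
        refine Set.mem_biUnion hg fun x hx => ?_
        by_cases hxL : x ∈ (L : Set Pt)
        · rw [comb_in hxL]
        · rw [comb_out hxL]
          exact hc' x (Finset.mem_sdiff.2 ⟨hx, hxL⟩)
      exact hm
    · intro hc
      have hc' : h ∈ ⋃ a ∈ FzF L ξ, Cyl B a := hc
      rw [Set.mem_iUnion₂] at hc'
      obtain ⟨a, ha, hha⟩ := hc'
      intro x hx
      rw [Finset.mem_sdiff] at hx
      rw [hha x hx.1, (mem_FzF.1 ha).2 x hx.2]
  rw [setLIntegral_congr hae, lintegral_biUnion_finset ?_ (fun a _ => measurable_cyl B a),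
    Finset.mul_sum]
  · refine Finset.sum_congr rfl fun a ha => ?_
    have h1 : ∫⁻ h in Cyl B a, f h ∂mu = ∫⁻ h in Cyl B a, f a ∂mu := by
      refine setLIntegral_congr_fun (measurable_cyl B a) fun h hh => ?_
      exact hf h a hh
    have h2 : mu (Cyl B a) = mu (Cyl B ξ) :=
      hmu.eq L B a ξ hLB hN (mem_FzF.1 ha).1 hξ (mem_FzF.1 ha).2
    rw [h1, setLIntegral_const, h2, mul_comm]
  · intro a ha a' ha' hne
    rw [Function.onFun, Set.disjoint_left]
    intro h hh hh'
    apply hne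
    funext x
    by_cases hx : x ∈ L
    · rw [← hh x (hLB hx), hh' x (hLB hx)]
    · rw [(mem_FzF.1 ha).2 x hx, (mem_FzF.1 ha').2 x hx]

/-- Local functions with the same sums over frozen configurations have the same integral. -/
theorem lintegral_of_frozen {mu : Measure Hg} (hmu : Gb mu) (L : Finset Pt) (f f' : Hg → ENNReal)
    (B₀ : Finset Pt) (hf : ∀ h h' : Hg, (∀ x ∈ B₀, h x = h' x) → f h = f h')
    (hf' : ∀ h h' : Hg, (∀ x ∈ B₀, h x = h' x) → f' h = f' h')
    (h0 : ∀ ξ : Hg, Lip ξ → ∑ a ∈ FzF L ξ, f a = ∑ a ∈ FzF L ξ, f' a) :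
    ∫⁻ h, f h ∂mu = ∫⁻ h, f' h ∂mu := by
  classical
  set B : Finset Pt := B₀ ∪ nbs L with hB
  have hB0 : ∀ x ∈ B₀, x ∈ B := fun x hx => Finset.mem_union_left _ hx
  have hLB : L ⊆ B := fun x hx => Finset.mem_union_right _ (Finset.mem_union_left _ hx)
  have hN : ∀ x ∈ L, ∀ y, Adj x y → y ∈ B := fun x hx y hxy =>
    Finset.mem_union_right _ (adj_nbs hx hxy)
  -- partition according to the pattern on `B \ L`
  set π : Hg → (↥(B \ L) → ℤ) := fun h x => h x with hπ
  have hmeas : Measurable π := measurable_pi_iff.2 fun x => measurable_pi_apply _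
  have hpart : ∀ f : Hg → ENNReal, ∫⁻ h, f h ∂mu =
      ∑' ζ : ↥(B \ L) → ℤ, ∫⁻ h in π ⁻¹' {ζ}, f h ∂mu := by
    intro f
    have hU : (⋃ ζ : ↥(B \ L) → ℤ, π ⁻¹' {ζ}) = Set.univ := by
      ext h
      simp
    rw [← setLIntegral_univ, ← hU]
    refine lintegral_iUnion (fun ζ => hmeas (measurableSet_singleton ζ)) ?_ _
    intro ζ ζ' hne
    rw [Function.onFun, Set.disjoint_left]
    intro h h1 h2
    exact hne (h1.symm.trans h2)
  rw [hpart, hpart]
  refine tsum_congr fun ζ => ?_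
  by_cases hex : ∃ ξ : Hg, Lip ξ ∧ π ξ = ζ
  · obtain ⟨ξ, hξ, rfl⟩ := hex
    have hset : π ⁻¹' {π ξ} = Cyl (B \ L) ξ := by
      ext h
      simp only [Set.mem_preimage, Set.mem_singleton_iff, Cyl, Set.mem_ofPred_eq]
      constructor
      · intro h1 x hx
        exact congrFun h1 ⟨x, hx⟩
      · intro h1
        funext x
        exact h1 x.1 x.2
    rw [hset, lintegral_cyl hmu hLB hN hξ f fun h h' hh => hf h h' fun x hx => hh x (hB0 x hx),
      lintegral_cyl hmu hLB hN hξ f' fun h h' hh => hf' h h' fun x hx => hh x (hB0 x hx),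
      h0 ξ hξ]
  · have hz : mu (π ⁻¹' {ζ}) = 0 := by
      have h1 : (π ⁻¹' {ζ}) ⊆ {h | ¬ Lip h} := by
        intro h hh hlip
        exact hex ⟨h, hlip, hh⟩
      exact measure_mono_null h1 (ae_iff.1 hmu.lip)
    rw [Measure.restrict_eq_zero.2 hz, lintegral_zero_measure, lintegral_zero_measure]

/-- Local function. -/
def Lc (B : Set Pt) (F : Hg → ℝ) : Prop :=
  ∃ Λ : Finset Pt, (∀ x ∈ Λ, x ∈ B) ∧ ∀ h h' : Hg, (∀ x ∈ Λ, h x = h' x) → F h = F h'

theorem Lc.mono {B B' : Set Pt} {F : Hg → ℝ} (h : Lc B F) (hB : B ⊆ B') : Lc B' F := by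
  obtain ⟨Λ, h1, h2⟩ := h
  exact ⟨Λ, fun x hx => hB (h1 x hx), h2⟩

theorem Lc.ker (hg : Lc (L : Set Pt) g) : Lc (bd L) (ker L g) := by
  classical
  obtain ⟨Λ, h1, h2⟩ := hg
  refine ⟨(nbs L).filter (· ∈ bd L), fun x hx => (Finset.mem_filter.1 hx).2, fun h h' hh => ?_⟩
  refine ker_congr (fun a b hab => h2 a b fun x hx => hab x (h1 x hx)) fun x hx => ?_
  exact hh x (Finset.mem_filter.2 ⟨bd_nbs hx, hx⟩)

theorem Lc.mul {B : Set Pt} {F G : Hg → ℝ} (hF : Lc B F) (hG : Lc B G) :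
    Lc B (fun h => F h * G h) := by
  classical
  obtain ⟨Λ, h1, h2⟩ := hF
  obtain ⟨Λ', h1', h2'⟩ := hG
  refine ⟨Λ ∪ Λ', fun x hx => ?_, fun h h' hh => ?_⟩
  · rcases Finset.mem_union.1 hx with hx | hx
    · exact h1 x hx
    · exact h1' x hx
  · simp only
    rw [h2 h h' fun x hx => hh x (Finset.mem_union_left _ hx),
      h2' h h' fun x hx => hh x (Finset.mem_union_right _ hx)]

theorem Lc.measurable {B : Set Pt} {F : Hg → ℝ} (h : Lc B F) : Measurable F := by
  classical
  obtain ⟨s, -, hs⟩ := h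
  let g : (s → ℤ) → ℝ := fun y => F (fun x => if hx : x ∈ s then y ⟨x, hx⟩ else 0)
  have hg : Measurable g := measurable_of_countable g
  have hF : F = g ∘ (fun h : Hg => fun x : s => h x) := by
    funext ω
    apply hs
    intro x hx
    simp [hx]
  rw [hF]
  exact hg.comp (measurable_pi_lambda _ fun x => measurable_pi_apply _)

/-- A function off `L` is constant on the frozen configurations. -/
theorem Lc.const {F : Hg → ℝ} (hF : Lc ((L : Set Pt)ᶜ) F) {a : Hg} (ha : a ∈ FzF L h) :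
    F a = F h := by
  obtain ⟨Λ, h1, h2⟩ := hF
  exact h2 _ _ fun x hx => (mem_FzF.1 ha).2 x (h1 x hx)

/-- The sums over frozen configurations. -/
theorem sum_ker {F : Hg → ℝ} (hF : Lc ((L : Set Pt)ᶜ) F) {ξ : Hg} (hξ : Lip ξ) :
    ∑ a ∈ FzF L ξ, F a * g a = ∑ a ∈ FzF L ξ, F a * ker L g a := by
  have e1 : ∀ a ∈ FzF L ξ, F a * g a = F ξ * g a := fun a ha => by rw [hF.const ha]
  have e2 : ∀ a ∈ FzF L ξ, F a * ker L g a = F ξ * ker L g ξ := fun a ha => by
    rw [hF.const ha, ker_of_mem hξ ha]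
  rw [Finset.sum_congr rfl e1, Finset.sum_congr rfl e2, ← Finset.mul_sum, Finset.sum_const,
    nsmul_eq_mul, ker_eq hξ]
  have h0 : (0 : ℝ) < #(FzF L ξ) := by exact_mod_cast card_FzF_pos hξ
  field_simp

/-- The kernel is the conditional expectation: nonnegative functions. -/
theorem lint_ker {mu : Measure Hg} (hmu : Gb mu) {F : Hg → ℝ} (hF0 : ∀ h, 0 ≤ F h)
    (hg0 : ∀ h, 0 ≤ g h) (hF : Lc ((L : Set Pt)ᶜ) F) (hg : Lc (L : Set Pt) g) :
    ∫⁻ h, ENNReal.ofReal (F h * g h) ∂mu = ∫⁻ h, ENNReal.ofReal (F h * ker L g h) ∂mu := by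
  classical
  have hK : Lc ((L : Set Pt)ᶜ) (ker L g) := hg.ker.mono fun x hx => hx.1
  have hF' := hF
  obtain ⟨B1, -, h1⟩ := hF
  obtain ⟨B2, -, h2⟩ := hg
  obtain ⟨B3, -, h3⟩ := hK
  refine lintegral_of_frozen hmu L _ _ (B1 ∪ B2 ∪ B3) (fun h h' hh => ?_) (fun h h' hh => ?_)
    fun ξ hξ => ?_
  · rw [h1 h h' fun x hx => hh x (by simp [hx]), h2 h h' fun x hx => hh x (by simp [hx])]
  · rw [h1 h h' fun x hx => hh x (by simp [hx]), h3 h h' fun x hx => hh x (by simp [hx])]
  · rw [← ENNReal.ofReal_sum_of_nonneg fun a _ => mul_nonneg (hF0 a) (hg0 a),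
      ← ENNReal.ofReal_sum_of_nonneg fun a _ => mul_nonneg (hF0 a) (ker_nonneg hg0 a),
      sum_ker hF' hξ]

/-- Integrability. -/
theorem integrable_ker {mu : Measure Hg} (hmu : Gb mu) {F : Hg → ℝ}
    (hg0 : ∀ h, 0 ≤ g h) (hF : Lc ((L : Set Pt)ᶜ) F) (hg : Lc (L : Set Pt) g) :
    Integrable (fun h => F h * ker L g h) mu ↔ Integrable (fun h => F h * g h) mu := by
  have hK : Measurable (ker L g) := hg.ker.measurable
  have hFa : Lc ((L : Set Pt)ᶜ) (fun h => |F h|) := by
    obtain ⟨Λ, h1, h2⟩ := hF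
    exact ⟨Λ, h1, fun h h' hh => by simp only [h2 h h' hh]⟩
  have key := lint_ker hmu (L := L) (F := fun h => |F h|) (fun h => abs_nonneg _) hg0 hFa hg
  have e1 : ∀ h, ENNReal.ofReal (|F h| * g h) = ‖F h * g h‖ₑ := fun h => by
    rw [Real.enorm_eq_ofReal_abs, abs_mul, abs_of_nonneg (hg0 h)]
  have e2 : ∀ h, ENNReal.ofReal (|F h| * ker L g h) = ‖F h * ker L g h‖ₑ := fun h => by
    rw [Real.enorm_eq_ofReal_abs, abs_mul, abs_of_nonneg (ker_nonneg hg0 h)]
  simp only [e1, e2] at key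
  have m1 : AEStronglyMeasurable (fun h => F h * g h) mu :=
    (hF.measurable.mul hg.measurable).aestronglyMeasurable
  have m2 : AEStronglyMeasurable (fun h => F h * ker L g h) mu :=
    (hF.measurable.mul hK).aestronglyMeasurable
  constructor
  · intro h
    refine ⟨m1, ?_⟩
    have := h.2
    rw [HasFiniteIntegral, ← key] at this
    exact this
  · intro h
    refine ⟨m2, ?_⟩
    have := h.2
    rw [HasFiniteIntegral, key] at this
    exact this

/-- The kernel is the conditional expectation. -/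
theorem int_ker {mu : Measure Hg} (hmu : Gb mu) {F : Hg → ℝ}
    (hg0 : ∀ h, 0 ≤ g h) (hF : Lc ((L : Set Pt)ᶜ) F) (hg : Lc (L : Set Pt) g) :
    ∫ h, F h * ker L g h ∂mu = ∫ h, F h * g h ∂mu := by
  have hK : Measurable (ker L g) := hg.ker.measurable
  have hpos : ∀ (s : ℝ), Lc ((L : Set Pt)ᶜ) (fun h => max (s * F h) 0) := by
    intro s
    obtain ⟨Λ, h1, h2⟩ := hF
    exact ⟨Λ, h1, fun h h' hh => by simp only [h2 h h' hh]⟩
  have key := fun s : ℝ => lint_ker hmu (L := L) (F := fun h => max (s * F h) 0)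
    (fun h => le_max_right _ _) hg0 (hpos s) hg
  by_cases hint : Integrable (fun h => F h * g h) mu
  · have hint' := (integrable_ker hmu hg0 hF hg).2 hint
    rw [integral_eq_lintegral_pos_part_sub_lintegral_neg_part hint,
      integral_eq_lintegral_pos_part_sub_lintegral_neg_part hint']
    have e1 : ∀ h, ENNReal.ofReal (max (1 * F h) 0 * g h) = ENNReal.ofReal (F h * g h) := by
      intro h
      rw [one_mul]
      rcases le_total 0 (F h) with h0 | h0
      · rw [max_eq_left h0]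
      · rw [max_eq_right h0, zero_mul, ENNReal.ofReal_zero,
          ENNReal.ofReal_of_nonpos (mul_nonpos_of_nonpos_of_nonneg h0 (hg0 h))]
    have e2 : ∀ h, ENNReal.ofReal (max (1 * F h) 0 * ker L g h) =
        ENNReal.ofReal (F h * ker L g h) := by
      intro h
      rw [one_mul]
      rcases le_total 0 (F h) with h0 | h0
      · rw [max_eq_left h0]
      · rw [max_eq_right h0, zero_mul, ENNReal.ofReal_zero,
          ENNReal.ofReal_of_nonpos (mul_nonpos_of_nonpos_of_nonneg h0 (ker_nonneg hg0 h))]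
    have e3 : ∀ h, ENNReal.ofReal (max (-1 * F h) 0 * g h) = ENNReal.ofReal (-(F h * g h)) := by
      intro h
      rw [neg_one_mul, ← neg_mul]
      rcases le_total 0 (-F h) with h0 | h0
      · rw [max_eq_left h0]
      · rw [max_eq_right h0, zero_mul, ENNReal.ofReal_zero,
          ENNReal.ofReal_of_nonpos (mul_nonpos_of_nonpos_of_nonneg h0 (hg0 h))]
    have e4 : ∀ h, ENNReal.ofReal (max (-1 * F h) 0 * ker L g h) =
        ENNReal.ofReal (-(F h * ker L g h)) := by
      intro h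
      rw [neg_one_mul, ← neg_mul]
      rcases le_total 0 (-F h) with h0 | h0
      · rw [max_eq_left h0]
      · rw [max_eq_right h0, zero_mul, ENNReal.ofReal_zero,
          ENNReal.ofReal_of_nonpos (mul_nonpos_of_nonpos_of_nonneg h0 (ker_nonneg hg0 h))]
    have k1 := key 1
    have k2 := key (-1)
    simp only [e1, e2] at k1
    simp only [e3, e4] at k2
    rw [k1, k2]
  · rw [integral_undef hint, integral_undef fun h => hint ((integrable_ker hmu hg0 hF hg).1 h)]

end Vale.Agent.P153.SDAD
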