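import Vale.Agent.P153.Bd5.B29
import Vale.Agent.P153.R2.SDAD.Dlr

/-!
P153, block SDAD (helper435): the Schwinger-Dyson equations for the moments under a density
`W = g1 g2 g3 H1 H2 H3`, where `g_i ≥ 0` is an arbitrary local functional on a finite set `A_i` in
the arm `i` of a pinwheel (for instance the indicator of exact boundary values, a rare event) and
`H_i` is a functional in the arm `i`, off `A_i`, such that `H_i * E[g_i | heights off A_i]` is at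
most `C ν_i`, while `∫ W ≥ c ν_1 ν_2 ν_3`.
-/

namespace Vale.Agent.P153.SDAD

open Finset Filter Topology MeasureTheory
open Vale.Agent.P145.PT (Sm TestOn lap)
open Vale.Agent.P153 Vale.Agent.P153.F Vale.Agent.P153.F.SD
open Vale.Agent.P153.GFF (Csts pos var2)

/-- One arm. -/
structure ArmD (δ : ℕ → ℝ) (K D : Set (ℝ × ℝ)) (A : ℕ → Finset Pt) (g H : ℕ → Hg → ℝ)
    (ν : ℕ → ℝ) (C : ℝ) : Prop where
  nbK : ∀ᶠ n in atTop, ∀ x ∈ nbs (A n), x ∈ lat (δ n) K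
  AD : ∀ᶠ n in atTop, ∀ x ∈ A n, δ n • pos x ∉ D
  lg : ∀ᶠ n in atTop, Lc (A n : Set Pt) (g n)
  lH : ∀ᶠ n in atTop, Lc (lat (δ n) K \ (A n : Set Pt)) (H n)
  g0 : ∀ᶠ n in atTop, ∀ h, 0 ≤ g n h
  H0 : ∀ᶠ n in atTop, ∀ h, 0 ≤ H n h
  ν0 : ∀ᶠ n in atTop, 0 < ν n
  one : ∀ᶠ n in atTop, ∀ h, Lip h → H n h * ker (A n) (g n) h ≤ C * ν n

/-- Three finite sets: replacing the functionals by their conditional expectations. -/
theorem int_three {mu : Measure Hg} (hmu : Gb mu) {A1 A2 A3 : Finset Pt} {K1 K2 K3 : Set Pt}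
    {g1 g2 g3 F : Hg → ℝ} (h1 : ∀ x ∈ nbs A1, x ∈ K1) (h2 : ∀ x ∈ nbs A2, x ∈ K2)
    (h3 : ∀ x ∈ nbs A3, x ∈ K3) (h12 : Disjoint K1 K2) (h13 : Disjoint K1 K3)
    (h23 : Disjoint K2 K3) (l1 : Lc (A1 : Set Pt) g1) (l2 : Lc (A2 : Set Pt) g2)
    (l3 : Lc (A3 : Set Pt) g3) (n1 : ∀ h, 0 ≤ g1 h) (n2 : ∀ h, 0 ≤ g2 h) (n3 : ∀ h, 0 ≤ g3 h)
    (hF : Lc ((A1 : Set Pt) ∪ A2 ∪ A3)ᶜ F) :
    (Integrable (fun h => F h * (ker A1 g1 h * ker A2 g2 h * ker A3 g3 h)) mu ↔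
      Integrable (fun h => F h * (g1 h * g2 h * g3 h)) mu) ∧
    ∫ h, F h * (ker A1 g1 h * ker A2 g2 h * ker A3 g3 h) ∂mu =
      ∫ h, F h * (g1 h * g2 h * g3 h) ∂mu := by
  have sub : ∀ {A : Finset Pt} {K : Set Pt}, (∀ x ∈ nbs A, x ∈ K) → ∀ x ∈ A, x ∈ K :=
    fun hA x hx => hA x (Finset.mem_union_left _ hx)
  have bdK : ∀ {A : Finset Pt} {K : Set Pt}, (∀ x ∈ nbs A, x ∈ K) → bd A ⊆ K :=
    fun hA x hx => hA x (bd_nbs hx)
  have dj : ∀ {A B : Set Pt} {K K' : Set Pt}, A ⊆ K → B ⊆ K' → Disjoint K K' → A ⊆ Bᶜ :=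
    fun hA hB hd x hx hxB => (Set.disjoint_left.1 hd) (hA hx) (hB hxB)
  have s1 : (A1 : Set Pt) ⊆ K1 := sub h1
  have s2 : (A2 : Set Pt) ⊆ K2 := sub h2
  have s3 : (A3 : Set Pt) ⊆ K3 := sub h3
  have F1 : Lc ((A1 : Set Pt)ᶜ) F := hF.mono fun x hx h => hx (Or.inl (Or.inl h))
  have F2 : Lc ((A2 : Set Pt)ᶜ) F := hF.mono fun x hx h => hx (Or.inl (Or.inr h))
  have F3 : Lc ((A3 : Set Pt)ᶜ) F := hF.mono fun x hx h => hx (Or.inr h)
  -- step 1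
  have a1 : Lc ((A1 : Set Pt)ᶜ) (fun h => F h * (g2 h * g3 h)) :=
    F1.mul ((l2.mono (dj s2 s1 h12.symm)).mul (l3.mono (dj s3 s1 h13.symm)))
  -- step 2
  have a2 : Lc ((A2 : Set Pt)ᶜ) (fun h => F h * (ker A1 g1 h * g3 h)) :=
    F2.mul ((l1.ker.mono (dj (bdK h1) s2 h12)).mul (l3.mono (dj s3 s2 h23.symm)))
  have a3 : Lc ((A3 : Set Pt)ᶜ) (fun h => F h * (ker A1 g1 h * ker A2 g2 h)) :=
    F3.mul ((l1.ker.mono (dj (bdK h1) s3 h13)).mul (l2.ker.mono (dj (bdK h2) s3 h23)))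
  have e1 : (fun h => F h * (g1 h * g2 h * g3 h)) = fun h => F h * (g2 h * g3 h) * g1 h := by
    funext h; ring
  have e1' : (fun h => F h * (g2 h * g3 h) * ker A1 g1 h) =
      fun h => F h * (ker A1 g1 h * g3 h) * g2 h := by
    funext h; ring
  have e2' : (fun h => F h * (ker A1 g1 h * g3 h) * ker A2 g2 h) =
      fun h => F h * (ker A1 g1 h * ker A2 g2 h) * g3 h := by
    funext h; ring
  have e3' : (fun h => F h * (ker A1 g1 h * ker A2 g2 h) * ker A3 g3 h) =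
      fun h => F h * (ker A1 g1 h * ker A2 g2 h * ker A3 g3 h) := by
    funext h; ring
  constructor
  · rw [e1, ← integrable_ker hmu n1 a1 l1, e1', ← integrable_ker hmu n2 a2 l2, e2',
      ← integrable_ker hmu n3 a3 l3, e3']
  · rw [e1, ← int_ker hmu n1 a1 l1, e1', ← int_ker hmu n2 a2 l2, e2',
      ← int_ker hmu n3 a3 l3, e3']

theorem disj12 (b : PW) (he : 0 < b.e) (δ : ℝ) : Disjoint (lat δ b.K1) (lat δ b.K2) := by
  refine Set.disjoint_left.2 fun x h1 h2 => ?_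
  simp only [lat, PW.K1, PW.K2, Set.mem_ofPred_eq] at h1 h2
  linarith

theorem disj13 (b : PW) (he : 0 < b.e) (δ : ℝ) : Disjoint (lat δ b.K1) (lat δ b.K3) := by
  refine Set.disjoint_left.2 fun x h1 h2 => ?_
  simp only [lat, PW.K1, PW.K3, Set.mem_ofPred_eq] at h1 h2
  linarith

theorem disj23 (b : PW) (he : 0 < b.e) (δ : ℝ) : Disjoint (lat δ b.K2) (lat δ b.K3) := by
  refine Set.disjoint_left.2 fun x h1 h2 => ?_
  simp only [lat, PW.K2, PW.K3, Set.mem_ofPred_eq] at h1 h2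
  linarith

/-- The density of an arm. -/
noncomputable def XA (A : Finset Pt) (g H : Hg → ℝ) (c : ℝ) (h : Hg) : ℝ :=
  min 1 (H h * ker A g h / c)

section

variable {P : Measure Fld} {δ : ℕ → ℝ} {b : PW} {D : Set (ℝ × ℝ)} {A1 A2 A3 : ℕ → Finset Pt}
  {g1 g2 g3 H1 H2 H3 : ℕ → Hg → ℝ} {ν1 ν2 ν3 : ℕ → ℝ} {C : ℝ}

/-- The density. -/
def WW (g1 g2 g3 H1 H2 H3 : Hg → ℝ) (h : Hg) : ℝ := g1 h * g2 h * g3 h * (H1 h * H2 h * H3 h)

theorem xa_loc {K : Set (ℝ × ℝ)} {A : ℕ → Finset Pt} {g H : ℕ → Hg → ℝ} {ν : ℕ → ℝ}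
    (d : ArmD δ K D A g H ν C) :
    ∀ᶠ n in atTop, Loc (lat (δ n) K) (XA (A n) (g n) (H n) (C * ν n)) := by
  filter_upwards [d.nbK, d.lg, d.lH] with n h1 h2 h3
  have k1 : Lc (lat (δ n) K) (ker (A n) (g n)) := h2.ker.mono fun x hx => h1 x (bd_nbs hx)
  have k2 : Lc (lat (δ n) K) (H n) := h3.mono Set.sdiff_subset
  obtain ⟨Λ, e1, e2⟩ := k2.mul k1
  refine ⟨Λ, e1, fun h h' hh => ?_⟩
  unfold XA
  have := e2 h h' hh
  simp only at this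
  rw [this]

theorem xa_nonneg {K : Set (ℝ × ℝ)} {A : ℕ → Finset Pt} {g H : ℕ → Hg → ℝ} {ν : ℕ → ℝ}
    (d : ArmD δ K D A g H ν C) (hC : 0 < C) :
    ∀ᶠ n in atTop, ∀ h, 0 ≤ XA (A n) (g n) (H n) (C * ν n) h ∧
      XA (A n) (g n) (H n) (C * ν n) h ≤ 1 := by
  filter_upwards [d.g0, d.H0, d.ν0] with n h1 h2 h3 h
  refine ⟨le_min zero_le_one (div_nonneg (mul_nonneg (h2 h) (ker_nonneg h1 h)) ?_),
    min_le_left _ _⟩
  positivity

theorem xa_eq {K : Set (ℝ × ℝ)} {A : ℕ → Finset Pt} {g H : ℕ → Hg → ℝ} {ν : ℕ → ℝ}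
    (d : ArmD δ K D A g H ν C) (hC : 0 < C) :
    ∀ᶠ n in atTop, ∀ h, Lip h → XA (A n) (g n) (H n) (C * ν n) h =
      (C * ν n)⁻¹ * (H n h * ker (A n) (g n) h) := by
  filter_upwards [d.one, d.ν0] with n h1 h2 h hh
  have h0 : 0 < C * ν n := by positivity
  unfold XA
  rw [min_eq_right ((div_le_one h0).2 (h1 h hh)), div_eq_inv_mul]

/-- The support of the weights of a test function on `D` does not meet `A`. -/
theorem lf_loc {f : ℝ × ℝ → ℝ} {d : ℝ} (hd : 0 < d) (hf : TestOn D f) {S : Set Pt}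
    (hS : ∀ x ∈ S, d • pos x ∉ D) : Lc Sᶜ (Lf d f) := by
  obtain ⟨K, hK⟩ := exists_csts hf.1 hf.2.1
  refine ⟨(Wd d f 0).support, fun x hx hxS => ?_, fun h h' hh => ?_⟩
  · have h1 := Wd_supp hK hd (Finsupp.mem_support_iff.1 hx)
    rw [add_zero] at h1
    exact hS x hxS (hf.2.2 (subset_tsupport _ h1))
  · unfold Lf
    exact Vale.Agent.P153.F.SD.ev_congr hh

/-- The relation between the two densities. -/
theorem key_int (hP : GFF.Plane P) (he : 0 < b.e) (hC : 0 < C)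
    (d1 : ArmD δ b.K1 D A1 g1 H1 ν1 C) (d2 : ArmD δ b.K2 D A2 g2 H2 ν2 C)
    (d3 : ArmD δ b.K3 D A3 g3 H3 ν3 C) :
    ∀ᶠ n in atTop, ∀ F : Hg → ℝ, Lc ((A1 n : Set Pt) ∪ A2 n ∪ A3 n)ᶜ F →
      (Integrable (fun h => F h * (XA (A1 n) (g1 n) (H1 n) (C * ν1 n) h *
        XA (A2 n) (g2 n) (H2 n) (C * ν2 n) h * XA (A3 n) (g3 n) (H3 n) (C * ν3 n) h)) (muT P) ↔
        Integrable (fun h => F h * WW (g1 n) (g2 n) (g3 n) (H1 n) (H2 n) (H3 n) h) (muT P)) ∧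
      ∫ h, F h * (XA (A1 n) (g1 n) (H1 n) (C * ν1 n) h *
        XA (A2 n) (g2 n) (H2 n) (C * ν2 n) h * XA (A3 n) (g3 n) (H3 n) (C * ν3 n) h) ∂(muT P) =
        (C ^ 3 * (ν1 n * ν2 n * ν3 n))⁻¹ *
          ∫ h, F h * WW (g1 n) (g2 n) (g3 n) (H1 n) (H2 n) (H3 n) h ∂(muT P) := by
  have hG : Gb (muT P) := by
    have := hP.prob
    exact gb_muT hP.lip hP.gibbs
  filter_upwards [xa_eq d1 hC, xa_eq d2 hC, xa_eq d3 hC, d1.nbK, d2.nbK, d3.nbK, d1.lg, d2.lg,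
    d3.lg, d1.lH, d2.lH, d3.lH, d1.g0, d2.g0, d3.g0, d1.ν0, d2.ν0, d3.ν0] with
    n x1 x2 x3 k1 k2 k3 l1 l2 l3 m1 m2 m3 p1 p2 p3 q1 q2 q3
  intro F hF
  have s1 : (A1 n : Set Pt) ⊆ lat (δ n) b.K1 := fun x hx => k1 x (Finset.mem_union_left _ hx)
  have s2 : (A2 n : Set Pt) ⊆ lat (δ n) b.K2 := fun x hx => k2 x (Finset.mem_union_left _ hx)
  have s3 : (A3 n : Set Pt) ⊆ lat (δ n) b.K3 := fun x hx => k3 x (Finset.mem_union_left _ hx)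
  have d12 := Set.disjoint_left.1 (disj12 b he (δ n))
  have d13 := Set.disjoint_left.1 (disj13 b he (δ n))
  have d23 := Set.disjoint_left.1 (disj23 b he (δ n))
  have M1 : Lc ((A1 n : Set Pt) ∪ A2 n ∪ A3 n)ᶜ (H1 n) := m1.mono fun x hx h => by
    rcases h with (h | h) | h
    · exact hx.2 h
    · exact d12 hx.1 (s2 h)
    · exact d13 hx.1 (s3 h)
  have M2 : Lc ((A1 n : Set Pt) ∪ A2 n ∪ A3 n)ᶜ (H2 n) := m2.mono fun x hx h => by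
    rcases h with (h | h) | h
    · exact d12 (s1 h) hx.1
    · exact hx.2 h
    · exact d23 hx.1 (s3 h)
  have M3 : Lc ((A1 n : Set Pt) ∪ A2 n ∪ A3 n)ᶜ (H3 n) := m3.mono fun x hx h => by
    rcases h with (h | h) | h
    · exact d13 (s1 h) hx.1
    · exact d23 (s2 h) hx.1
    · exact hx.2 h
  have key := int_three hG k1 k2 k3 (disj12 b he (δ n)) (disj13 b he (δ n)) (disj23 b he (δ n))
    l1 l2 l3 p1 p2 p3 (F := fun h => F h * (H1 n h * H2 n h * H3 n h))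
    (hF.mul ((M1.mul M2).mul M3))
  set c : ℝ := (C ^ 3 * (ν1 n * ν2 n * ν3 n))⁻¹ with hc
  have hc0 : c ≠ 0 := by positivity
  have e0 : (fun h => F h * (XA (A1 n) (g1 n) (H1 n) (C * ν1 n) h *
        XA (A2 n) (g2 n) (H2 n) (C * ν2 n) h * XA (A3 n) (g3 n) (H3 n) (C * ν3 n) h)) =ᵐ[muT P]
      fun h => c * (F h * (H1 n h * H2 n h * H3 n h) * (ker (A1 n) (g1 n) h *
        ker (A2 n) (g2 n) h * ker (A3 n) (g3 n) h)) := by
    filter_upwards [hG.lip] with h hh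
    rw [x1 h hh, x2 h hh, x3 h hh, hc]
    field_simp
  have e1 : (fun h => F h * (H1 n h * H2 n h * H3 n h) * (g1 n h * g2 n h * g3 n h)) =
      fun h => F h * WW (g1 n) (g2 n) (g3 n) (H1 n) (H2 n) (H3 n) h := by
    funext h
    unfold WW
    ring
  rw [e1] at key
  constructor
  · rw [integrable_congr e0, integrable_const_mul_iff hc0.isUnit, key.1]
  · rw [integral_congr_ae e0, integral_const_mul, key.2]

/-- **Schwinger-Dyson equations for the moments with rare events in the arms.** -/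
theorem adapt (hP : GFF.Plane P) {A0 : ℝ} (hA0 : 0 ≤ A0)
    (hA : ∀ x : ℤ × ℤ, var2 P x ≤ A0 * (1 + |(x.1 : ℝ)| + |(x.2 : ℝ)|)) {κ : ℝ}
    (hclt : CLT P κ) (hδp : ∀ n, 0 < δ n) (hδ : Tendsto δ atTop (𝓝[>] 0))
    (hb : b.x0 + b.y0 < b.s0) (he : 0 < b.e) (hbD : b.box ⊆ D) (hC : 0 < C)
    (d1 : ArmD δ b.K1 D A1 g1 H1 ν1 C) (d2 : ArmD δ b.K2 D A2 g2 H2 ν2 C)
    (d3 : ArmD δ b.K3 D A3 g3 H3 ν3 C)
    (hint : ∀ᶠ n in atTop, Integrable (WW (g1 n) (g2 n) (g3 n) (H1 n) (H2 n) (H3 n)) (muT P))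
    (hpos : ∃ c0 : ℝ, 0 < c0 ∧ ∀ᶠ n in atTop, c0 * (ν1 n * ν2 n * ν3 n) ≤
      ∫ h, WW (g1 n) (g2 n) (g3 n) (H1 n) (H2 n) (H3 n) h ∂(muT P))
    (hmom : ∀ f, TestOn D f → ∀ k : ℕ, ∃ C : ℝ, ∀ᶠ n in atTop,
      Integrable (fun h => Lf (δ n) f h ^ (2 * k) *
        WW (g1 n) (g2 n) (g3 n) (H1 n) (H2 n) (H3 n) h) (muT P) ∧
      ∫ h, Lf (δ n) f h ^ (2 * k) * WW (g1 n) (g2 n) (g3 n) (H1 n) (H2 n) (H3 n) h ∂(muT P) ≤
        C * ∫ h, WW (g1 n) (g2 n) (g3 n) (H1 n) (H2 n) (H3 n) h ∂(muT P))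
    (r1 : ∃ ρ : ℝ × ℝ → ℝ, TestOn (b.K1 ∩ D) ρ ∧ ∫ x, ρ x = 1)
    (r3 : ∃ ρ : ℝ × ℝ → ℝ, TestOn (b.K3 ∩ D) ρ ∧ ∫ x, ρ x = 1)
    {ψ f0 g : ℝ × ℝ → ℝ} (hψ : TestOn b.box ψ)
    (hf0 : TestOn b.box f0) (hg : TestOn D g)
    (hgK : ∀ x, g x ≠ 0 → x ∈ b.K1 ∨ x ∈ b.K2 ∨ x ∈ b.K3) (k : ℕ) :
    Tendsto (fun n => (∫ h, Lf (δ n) (lap ψ) h * Lf (δ n) (fun x => f0 x + g x) h ^ (k + 1) *
        WW (g1 n) (g2 n) (g3 n) (H1 n) (H2 n) (H3 n) h ∂(muT P) +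
      κ * (k + 1) * (∫ x, ψ x * (f0 x + g x)) *
        ∫ h, Lf (δ n) (fun x => f0 x + g x) h ^ k *
          WW (g1 n) (g2 n) (g3 n) (H1 n) (H2 n) (H3 n) h ∂(muT P)) /
          ∫ h, WW (g1 n) (g2 n) (g3 n) (H1 n) (H2 n) (H3 n) h ∂(muT P)) atTop (𝓝 0) := by
  have hkey := key_int (b := b) hP he hC d1 d2 d3
  -- local functions
  have hone : ∀ S : Set Pt, Lc S (fun _ => (1 : ℝ)) := fun S => ⟨∅, by simp, fun _ _ _ => rfl⟩
  have hSD : ∀ᶠ n in atTop, ∀ x ∈ (A1 n : Set Pt) ∪ A2 n ∪ A3 n, δ n • pos x ∉ D := by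
    filter_upwards [d1.AD, d2.AD, d3.AD] with n a1 a2 a3 x hx
    rcases hx with (hx | hx) | hx
    · exact a1 x hx
    · exact a2 x hx
    · exact a3 x hx
  have hpow : ∀ f, TestOn D f → ∀ k : ℕ, ∀ᶠ n in atTop,
      Lc ((A1 n : Set Pt) ∪ A2 n ∪ A3 n)ᶜ (fun h => Lf (δ n) f h ^ k) := by
    intro f hf k
    filter_upwards [hSD] with n hn
    obtain ⟨Λ, e1, e2⟩ := lf_loc (hδp n) hf hn
    exact ⟨Λ, e1, fun h h' hh => by simp only [e2 h h' hh]⟩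
  have dat : DatM P δ b D (fun n => XA (A1 n) (g1 n) (H1 n) (C * ν1 n))
      (fun n => XA (A2 n) (g2 n) (H2 n) (C * ν2 n)) (fun n => XA (A3 n) (g3 n) (H3 n) (C * ν3 n))
      (fun n h => XA (A1 n) (g1 n) (H1 n) (C * ν1 n) h * XA (A2 n) (g2 n) (H2 n) (C * ν2 n) h *
        XA (A3 n) (g3 n) (H3 n) (C * ν3 n) h) := by
    refine ⟨hb, he, hbD, xa_loc d1, xa_loc d2, xa_loc d3, xa_nonneg d1 hC, xa_nonneg d2 hC,
      xa_nonneg d3 hC, Eventually.of_forall fun n h => rfl, ?_, ?_, ?_, r1, r3⟩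
    · filter_upwards [hkey, hint] with n h1 h2
      have := (h1 (fun _ => 1) (hone _)).1
      simp only [one_mul] at this
      exact this.2 h2
    · obtain ⟨c0, hc0, h0⟩ := hpos
      refine ⟨c0 / C ^ 3, by positivity, ?_⟩
      filter_upwards [hkey, h0, d1.ν0, d2.ν0, d3.ν0] with n h1 h2 q1 q2 q3
      have := (h1 (fun _ => 1) (hone _)).2
      simp only [one_mul] at this
      rw [this]
      have h3 : (0 : ℝ) < C ^ 3 * (ν1 n * ν2 n * ν3 n) := by positivity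
      rw [inv_mul_eq_div, le_div_iff₀ h3]
      calc c0 / C ^ 3 * (C ^ 3 * (ν1 n * ν2 n * ν3 n)) = c0 * (ν1 n * ν2 n * ν3 n) := by
            field_simp
        _ ≤ _ := h2
    · intro f hf k
      obtain ⟨C', hC'⟩ := hmom f hf k
      refine ⟨C', ?_⟩
      filter_upwards [hkey, hC', hpow f hf (2 * k), d1.ν0, d2.ν0, d3.ν0] with n h1 h2 h3 q1 q2 q3
      obtain ⟨e1, e2⟩ := h1 _ h3
      have e3 := (h1 (fun _ => 1) (hone _)).2
      simp only [one_mul] at e3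
      refine ⟨e1.2 h2.1, ?_⟩
      rw [e2, e3]
      have h5 : (0 : ℝ) ≤ (C ^ 3 * (ν1 n * ν2 n * ν3 n))⁻¹ := by positivity
      refine (mul_le_mul_of_nonneg_left h2.2 h5).trans (le_of_eq ?_)
      ring
  have hres := useM hP hA0 hA hclt hδp hδ dat hψ hf0 hg hgK k
  refine hres.congr' ?_
  have hf : TestOn D (fun x => f0 x + g x) := (hf0.mono hbD).add hg
  have hψD : TestOn D (lap ψ) := hψ.lap.mono hbD
  filter_upwards [hkey, hpow _ hf k, hpow _ hf (k + 1), hpow _ hψD 1, d1.ν0, d2.ν0, d3.ν0] with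
    n h1 h2 h3 h4 q1 q2 q3
  simp only [pow_one] at h4
  have e1 := (h1 _ (h4.mul h3)).2
  have e2 := (h1 _ h2).2
  have e3 := (h1 (fun _ => 1) (hone _)).2
  simp only [one_mul] at e3
  rw [e1, e2, e3]
  have h5 : (0 : ℝ) < (C ^ 3 * (ν1 n * ν2 n * ν3 n))⁻¹ := by positivity
  have halg : ∀ r a b c d : ℝ, r ≠ 0 → (r * a + c * (r * b)) / (r * d) = (a + c * b) / d := by
    intro r a b c d hr
    rw [show r * a + c * (r * b) = r * (a + c * b) by ring, mul_div_mul_left _ _ hr]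
  exact halg _ _ _ _ _ h5.ne'

end

end Vale.Agent.P153.SDAD
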