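import Vale.Agent.P153.R2.SDAD.Adapt

/-!
P153, block SDAD (helper435): the Schwinger-Dyson equations for the moments under the density
`g1 g2 g3` itself: the shields `H_i` have conditional probability close to one.
-/

namespace Vale.Agent.P153.SDAD

open Finset Filter Topology MeasureTheory
open Vale.Agent.P145.PT (Sm TestOn lap)
open Vale.Agent.P153 Vale.Agent.P153.F Vale.Agent.P153.F.SD
open Vale.Agent.P153.GFF (Csts pos var2)

theorem int_add3 {Ω : Type*} [MeasurableSpace Ω] {μ : Measure Ω} {f g h : Ω → ℝ}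
    (hf : Integrable f μ) (hg : Integrable g μ) (hh : Integrable h μ) :
    ∫ x, (f x + g x + h x) ∂μ = ∫ x, f x ∂μ + ∫ x, g x ∂μ + ∫ x, h x ∂μ := by
  have e1 : ∫ x, (f x + g x + h x) ∂μ = (∫ x, (f x + g x) ∂μ) + ∫ x, h x ∂μ :=
    integral_add (f := fun x => f x + g x) (hf.add hg) hh
  rw [e1, integral_add hf hg]

/-- Comparison of two weights. -/
theorem cmp_weights {Ω : Type*} [MeasurableSpace Ω] {μ : Measure Ω} {G W Y : Ω → ℝ}
    (hW0 : ∀ h, 0 ≤ W h) (hWG : ∀ h, W h ≤ G h) (mG : Measurable G) (mW : Measurable W)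
    (mY : Measurable Y) (iG : Integrable G μ) (iY : Integrable (fun h => Y h ^ 2 * G h) μ)
    {ε C : ℝ} (hε : 0 ≤ ε) (hC : 0 ≤ C) (hG : ∫ h, (G h - W h) ∂μ ≤ ε * ∫ h, G h ∂μ)
    (hY : ∫ h, Y h ^ 2 * G h ∂μ ≤ C * ∫ h, G h ∂μ) (hpos : 0 < ∫ h, W h ∂μ) :
    |(∫ h, Y h * G h ∂μ) / ∫ h, G h ∂μ| ≤
      |(∫ h, Y h * W h ∂μ) / ∫ h, W h ∂μ| + √C * √ε := by
  have hG0 : ∀ h, 0 ≤ G h := fun h => (hW0 h).trans (hWG h)
  have iW : Integrable W μ := iG.mono' mW.aestronglyMeasurable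
    (Eventually.of_forall fun h => by rw [Real.norm_eq_abs, abs_of_nonneg (hW0 h)]; exact hWG h)
  have hWGi : ∫ h, W h ∂μ ≤ ∫ h, G h ∂μ := integral_mono iW iG hWG
  have hGp : 0 < ∫ h, G h ∂μ := lt_of_lt_of_le hpos hWGi
  have bd : ∀ h, |Y h * G h| ≤ (Y h ^ 2 * G h + G h) := fun h => by
    rw [abs_mul, abs_of_nonneg (hG0 h)]
    have : |Y h| ≤ Y h ^ 2 + 1 := by
      rcases abs_cases (Y h) with ⟨e, -⟩ | ⟨e, -⟩ <;> rw [e] <;> nlinarith [sq_nonneg (Y h - 1),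
        sq_nonneg (Y h + 1), sq_nonneg (Y h)]
    nlinarith [hG0 h]
  have iYG : Integrable (fun h => Y h * G h) μ := (iY.add iG).mono'
    (mY.mul mG).aestronglyMeasurable (Eventually.of_forall fun h => by
      rw [Real.norm_eq_abs]; exact bd h)
  have iYW : Integrable (fun h => Y h * W h) μ := (iY.add iG).mono'
    (mY.mul mW).aestronglyMeasurable (Eventually.of_forall fun h => by
      rw [Real.norm_eq_abs]
      refine le_trans ?_ (bd h)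
      rw [abs_mul, abs_mul, abs_of_nonneg (hW0 h), abs_of_nonneg (hG0 h)]
      exact mul_le_mul_of_nonneg_left (hWG h) (abs_nonneg _))
  have hdiff : |∫ h, Y h * G h ∂μ - ∫ h, Y h * W h ∂μ| ≤ √C * √ε * ∫ h, G h ∂μ := by
    rw [← integral_sub iYG iYW]
    have e0 : (fun h => Y h * G h - Y h * W h) = fun h => Y h * (G h - W h) := by
      funext h; ring
    rw [e0]
    have i2 : Integrable (fun h => Y h ^ 2 * (G h - W h)) μ := iY.mono'
      ((mY.pow_const 2).mul (mG.sub mW)).aestronglyMeasurable (Eventually.of_forall fun h => by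
        rw [Real.norm_eq_abs, abs_of_nonneg (mul_nonneg (sq_nonneg _) (sub_nonneg.2 (hWG h)))]
        exact mul_le_mul_of_nonneg_left (by linarith [hW0 h]) (sq_nonneg _))
    have iD : Integrable (fun h => G h - W h) μ := iG.sub iW
    -- Cauchy-Schwarz
    have cs : (∫ h, |Y h| * (G h - W h) ∂μ) ^ 2 ≤
        (∫ h, Y h ^ 2 * (G h - W h) ∂μ) * ∫ h, (G h - W h) ∂μ := by
      have iA : Integrable (fun h => |Y h| * (G h - W h)) μ := (i2.add iD).mono'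
        (mY.abs.mul (mG.sub mW)).aestronglyMeasurable (Eventually.of_forall fun h => by
          have h0 : 0 ≤ G h - W h := sub_nonneg.2 (hWG h)
          rw [Real.norm_eq_abs, abs_of_nonneg (mul_nonneg (abs_nonneg _) h0)]
          have : |Y h| ≤ Y h ^ 2 + 1 := by
            rcases abs_cases (Y h) with ⟨e, -⟩ | ⟨e, -⟩ <;> rw [e] <;>
              nlinarith [sq_nonneg (Y h - 1), sq_nonneg (Y h + 1), sq_nonneg (Y h)]
          show |Y h| * (G h - W h) ≤ Y h ^ 2 * (G h - W h) + (G h - W h)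
          nlinarith)
      have key : ∀ t : ℝ, 0 ≤ (∫ h, Y h ^ 2 * (G h - W h) ∂μ) * (t * t) +
          (-2 * ∫ h, |Y h| * (G h - W h) ∂μ) * t + ∫ h, (G h - W h) ∂μ := by
        intro t
        have e1 : (∫ h, Y h ^ 2 * (G h - W h) ∂μ) * (t * t) +
            (-2 * ∫ h, |Y h| * (G h - W h) ∂μ) * t + ∫ h, (G h - W h) ∂μ =
            ∫ h, (t * |Y h| - 1) ^ 2 * (G h - W h) ∂μ := by
          have e2 : (fun h => (t * |Y h| - 1) ^ 2 * (G h - W h)) = fun h =>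
              (Y h ^ 2 * (G h - W h)) * (t * t) + (|Y h| * (G h - W h)) * (-2 * t) +
                (G h - W h) := by
            funext h
            rw [← sq_abs (Y h)]
            ring
          rw [e2, int_add3 (i2.mul_const _) (iA.mul_const _) iD, integral_mul_const,
            integral_mul_const]
          ring
        rw [e1]
        exact integral_nonneg fun h => mul_nonneg (sq_nonneg _) (sub_nonneg.2 (hWG h))
      have := discrim_le_zero key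
      unfold discrim at this
      nlinarith
    have a1 : ∫ h, Y h ^ 2 * (G h - W h) ∂μ ≤ C * ∫ h, G h ∂μ := by
      refine (integral_mono i2 iY fun h => ?_).trans hY
      exact mul_le_mul_of_nonneg_left (by linarith [hW0 h]) (sq_nonneg _)
    have a0 : 0 ≤ ∫ h, (G h - W h) ∂μ := integral_nonneg fun h => sub_nonneg.2 (hWG h)
    have a2 : (∫ h, |Y h| * (G h - W h) ∂μ) ^ 2 ≤ (√C * √ε * ∫ h, G h ∂μ) ^ 2 := by
      calc _ ≤ _ := cs
        _ ≤ (C * ∫ h, G h ∂μ) * (ε * ∫ h, G h ∂μ) :=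
          mul_le_mul a1 hG a0 (by positivity)
        _ = (√C * √ε * ∫ h, G h ∂μ) ^ 2 := by
          rw [mul_pow, mul_pow, Real.sq_sqrt hC, Real.sq_sqrt hε]
          ring
    have a3 : ∫ h, |Y h| * (G h - W h) ∂μ ≤ √C * √ε * ∫ h, G h ∂μ :=
      le_of_sq_le_sq a2 (by positivity)
    refine (abs_integral_le_integral_abs).trans (le_trans (le_of_eq ?_) a3)
    refine integral_congr_ae (Eventually.of_forall fun h => ?_)
    simp only
    rw [abs_mul, abs_of_nonneg (sub_nonneg.2 (hWG h))]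
  have h1 : |∫ h, Y h * G h ∂μ| ≤ |∫ h, Y h * W h ∂μ| + √C * √ε * ∫ h, G h ∂μ := by
    have := abs_sub_abs_le_abs_sub (∫ h, Y h * G h ∂μ) (∫ h, Y h * W h ∂μ)
    linarith
  rw [abs_div, abs_div, abs_of_pos hGp, abs_of_pos hpos, div_le_iff₀ hGp]
  calc |∫ h, Y h * G h ∂μ| ≤ |∫ h, Y h * W h ∂μ| + √C * √ε * ∫ h, G h ∂μ := h1
    _ ≤ |∫ h, Y h * W h ∂μ| / (∫ h, W h ∂μ) * (∫ h, G h ∂μ) + √C * √ε * ∫ h, G h ∂μ := by
        refine add_le_add ?_ le_rfl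
        rw [div_mul_eq_mul_div, le_div_iff₀ hpos]
        exact mul_le_mul_of_nonneg_left hWGi (abs_nonneg _)
    _ = _ := by ring

section

variable {P : Measure Fld} {δ : ℕ → ℝ} {b : PW} {D : Set (ℝ × ℝ)} {A1 A2 A3 : ℕ → Finset Pt}
  {g1 g2 g3 : ℕ → Hg → ℝ}

/-- The shields: for every `ε` there are shields of conditional probability at least `1 - ε` for
which the one-arm bound and the lower bound hold. -/
def Shields (P : Measure Fld) (δ : ℕ → ℝ) (b : PW) (D : Set (ℝ × ℝ)) (A1 A2 A3 : ℕ → Finset Pt)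
    (g1 g2 g3 : ℕ → Hg → ℝ) (ε : ℝ) : Prop :=
  ∃ (C : ℝ) (H1 H2 H3 : ℕ → Hg → ℝ) (ν1 ν2 ν3 : ℕ → ℝ), 0 < C ∧
    ArmD δ b.K1 D A1 g1 H1 ν1 C ∧ ArmD δ b.K2 D A2 g2 H2 ν2 C ∧ ArmD δ b.K3 D A3 g3 H3 ν3 C ∧
    (∀ᶠ n in atTop, ∀ h, H1 n h ≤ 1 ∧ H2 n h ≤ 1 ∧ H3 n h ≤ 1) ∧
    (∃ c0 : ℝ, 0 < c0 ∧ ∀ᶠ n in atTop, c0 * (ν1 n * ν2 n * ν3 n) ≤
      ∫ h, WW (g1 n) (g2 n) (g3 n) (H1 n) (H2 n) (H3 n) h ∂(muT P)) ∧
    ∀ᶠ n in atTop, ∫ h, (g1 n h * g2 n h * g3 n h -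
        WW (g1 n) (g2 n) (g3 n) (H1 n) (H2 n) (H3 n) h) ∂(muT P) ≤
      ε * ∫ h, g1 n h * g2 n h * g3 n h ∂(muT P)

/-- Square of the observable. -/
theorem sq_obs (a b c : ℝ) (k : ℕ) : (a * b ^ (k + 1) + c * b ^ k) ^ 2 ≤
    a ^ (2 * 2) + b ^ (2 * (2 * (k + 1))) + 2 * c ^ 2 * b ^ (2 * k) := by
  have e1 : a ^ (2 * 2) = (a ^ 2) ^ 2 := by rw [← pow_mul]
  have e2 : b ^ (2 * (2 * (k + 1))) = (b ^ (2 * (k + 1))) ^ 2 := by rw [← pow_mul]; ring_nf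
  have e3 : b ^ (2 * (k + 1)) = (b ^ (k + 1)) ^ 2 := by rw [← pow_mul]; ring_nf
  have e4 : b ^ (2 * k) = (b ^ k) ^ 2 := by rw [← pow_mul]; ring_nf
  rw [e1, e2, e3, e4]
  have h1 := sq_nonneg (a * b ^ (k + 1) - c * b ^ k)
  have h2 := sq_nonneg (a ^ 2 - (b ^ (k + 1)) ^ 2)
  nlinarith

theorem int_dom1 {μ : Measure Hg} {G W a b : Hg → ℝ} {k : ℕ} (b3 : ∀ h, 0 ≤ W h ∧ W h ≤ G h)
    (mW : Measurable W) (ma : Measurable a) (mb : Measurable b)
    (q1 : Integrable (fun h => a h ^ (2 * 2) * G h) μ)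
    (q2 : Integrable (fun h => b h ^ (2 * (2 * (k + 1))) * G h) μ) (q3 : Integrable G μ) :
    Integrable (fun h => a h * b h ^ (k + 1) * W h) μ := by
  have i1 : Integrable (fun h => a h ^ (2 * 2) * G h + b h ^ (2 * (2 * (k + 1))) * G h + G h) μ :=
    (q1.add q2).add q3
  refine i1.mono' ((ma.mul (mb.pow_const _)).mul mW).aestronglyMeasurable
    (Eventually.of_forall fun h => ?_)
  have s1 := sq_obs (a h) (b h) 0 k
  have s2 : |a h * b h ^ (k + 1)| ≤ a h ^ (2 * 2) + b h ^ (2 * (2 * (k + 1))) + 1 := by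
    have s3 : |a h * b h ^ (k + 1)| ≤ (a h * b h ^ (k + 1)) ^ 2 + 1 := by
      rcases abs_cases (a h * b h ^ (k + 1)) with ⟨e, -⟩ | ⟨e, -⟩ <;> rw [e] <;>
        nlinarith [sq_nonneg (a h * b h ^ (k + 1) - 1), sq_nonneg (a h * b h ^ (k + 1) + 1),
          sq_nonneg (a h * b h ^ (k + 1))]
    have s5 : (a h * b h ^ (k + 1) + 0 * b h ^ k) ^ 2 = (a h * b h ^ (k + 1)) ^ 2 := by ring
    have s6 : a h ^ (2 * 2) + b h ^ (2 * (2 * (k + 1))) + 2 * 0 ^ 2 * b h ^ (2 * k) =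
      a h ^ (2 * 2) + b h ^ (2 * (2 * (k + 1))) := by ring
    linarith
  obtain ⟨t1, t2⟩ := b3 h
  rw [norm_mul, Real.norm_eq_abs, Real.norm_eq_abs, abs_of_nonneg t1]
  calc |a h * b h ^ (k + 1)| * W h ≤ (a h ^ (2 * 2) + b h ^ (2 * (2 * (k + 1))) + 1) * G h :=
        mul_le_mul s2 t2 t1 ((abs_nonneg _).trans s2)
    _ = _ := by ring

theorem int_dom2 {μ : Measure Hg} {G W b : Hg → ℝ} {k : ℕ} (b3 : ∀ h, 0 ≤ W h ∧ W h ≤ G h)
    (mW : Measurable W) (mb : Measurable b)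
    (q1 : Integrable (fun h => b h ^ (2 * k) * G h) μ) (q3 : Integrable G μ) :
    Integrable (fun h => b h ^ k * W h) μ := by
  have i1 : Integrable (fun h => b h ^ (2 * k) * G h + G h) μ := q1.add q3
  refine i1.mono' ((mb.pow_const _).mul mW).aestronglyMeasurable
    (Eventually.of_forall fun h => ?_)
  have e4 : b h ^ (2 * k) = (b h ^ k) ^ 2 := by rw [← pow_mul]; ring_nf
  have s3 : |b h ^ k| ≤ b h ^ (2 * k) + 1 := by
    rw [e4]
    rcases abs_cases (b h ^ k) with ⟨e, -⟩ | ⟨e, -⟩ <;> rw [e] <;>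
      nlinarith [sq_nonneg (b h ^ k - 1), sq_nonneg (b h ^ k + 1), sq_nonneg (b h ^ k)]
  obtain ⟨t1, t2⟩ := b3 h
  rw [norm_mul, Real.norm_eq_abs, Real.norm_eq_abs, abs_of_nonneg t1]
  calc |b h ^ k| * W h ≤ (b h ^ (2 * k) + 1) * G h :=
        mul_le_mul s3 t2 t1 ((abs_nonneg _).trans s3)
    _ = _ := by ring

/-- The second moment of the observable. -/
theorem sq_mom {μ : Measure Hg} {G a b : Hg → ℝ} {c c1 c2 c3 : ℝ} {k : ℕ}
    (ma : Measurable a) (mb : Measurable b) (mG : Measurable G)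
    (a1 : Integrable (fun h => a h ^ (2 * 2) * G h) μ ∧
      ∫ h, a h ^ (2 * 2) * G h ∂μ ≤ c1 * ∫ h, G h ∂μ)
    (a2 : Integrable (fun h => b h ^ (2 * (2 * (k + 1))) * G h) μ ∧
      ∫ h, b h ^ (2 * (2 * (k + 1))) * G h ∂μ ≤ c2 * ∫ h, G h ∂μ)
    (a3 : Integrable (fun h => b h ^ (2 * k) * G h) μ ∧
      ∫ h, b h ^ (2 * k) * G h ∂μ ≤ c3 * ∫ h, G h ∂μ) (a6 : ∀ h, 0 ≤ G h) :
    Integrable (fun h => (a h * b h ^ (k + 1) + c * b h ^ k) ^ 2 * G h) μ ∧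
      ∫ h, (a h * b h ^ (k + 1) + c * b h ^ k) ^ 2 * G h ∂μ ≤
        (|c1| + |c2| + 2 * c ^ 2 * |c3|) * ∫ h, G h ∂μ := by
  have iB : Integrable (fun h => a h ^ (2 * 2) * G h + b h ^ (2 * (2 * (k + 1))) * G h +
      2 * c ^ 2 * (b h ^ (2 * k) * G h)) μ := (a1.1.add a2.1).add (a3.1.const_mul _)
  have key : ∀ h, (a h * b h ^ (k + 1) + c * b h ^ k) ^ 2 * G h ≤ a h ^ (2 * 2) * G h +
      b h ^ (2 * (2 * (k + 1))) * G h + 2 * c ^ 2 * (b h ^ (2 * k) * G h) := by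
    intro h
    have := mul_le_mul_of_nonneg_right (sq_obs (a h) (b h) c k) (a6 h)
    refine this.trans (le_of_eq ?_)
    ring
  have mY : Measurable fun h => a h * b h ^ (k + 1) + c * b h ^ k :=
    (ma.mul (mb.pow_const _)).add ((mb.pow_const _).const_mul _)
  have iY : Integrable (fun h => (a h * b h ^ (k + 1) + c * b h ^ k) ^ 2 * G h) μ := iB.mono'
    ((mY.pow_const 2).mul mG).aestronglyMeasurable (Eventually.of_forall fun h => by
      rw [Real.norm_eq_abs, abs_of_nonneg (mul_nonneg (sq_nonneg _) (a6 h))]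
      exact key h)
  refine ⟨iY, (integral_mono iY iB key).trans ?_⟩
  rw [int_add3 a1.1 a2.1 (a3.1.const_mul _), integral_const_mul]
  have hI : 0 ≤ ∫ h, G h ∂μ := integral_nonneg a6
  have b1 := a1.2.trans (mul_le_mul_of_nonneg_right (le_abs_self c1) hI)
  have b2 := a2.2.trans (mul_le_mul_of_nonneg_right (le_abs_self c2) hI)
  have b3 := a3.2.trans (mul_le_mul_of_nonneg_right (le_abs_self c3) hI)
  have b4 := mul_le_mul_of_nonneg_left b3 (show (0 : ℝ) ≤ 2 * c ^ 2 by positivity)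
  calc _ ≤ |c1| * (∫ h, G h ∂μ) + |c2| * (∫ h, G h ∂μ) +
      2 * c ^ 2 * (|c3| * ∫ h, G h ∂μ) := add_le_add (add_le_add b1 b2) b4
    _ = (|c1| + |c2| + 2 * c ^ 2 * |c3|) * ∫ h, G h ∂μ := by ring

/-- **Schwinger-Dyson equations for the moments under the density `g1 g2 g3`.** -/
theorem adaptG (hP : GFF.Plane P) {A0 : ℝ} (hA0 : 0 ≤ A0)
    (hA : ∀ x : ℤ × ℤ, var2 P x ≤ A0 * (1 + |(x.1 : ℝ)| + |(x.2 : ℝ)|)) {κ : ℝ}
    (hclt : CLT P κ) (hδp : ∀ n, 0 < δ n) (hδ : Tendsto δ atTop (𝓝[>] 0))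
    (hb : b.x0 + b.y0 < b.s0) (he : 0 < b.e) (hbD : b.box ⊆ D)
    (hint : ∀ᶠ n in atTop, Integrable (fun h => g1 n h * g2 n h * g3 n h) (muT P))
    (hsh : ∀ ε : ℝ, 0 < ε → Shields P δ b D A1 A2 A3 g1 g2 g3 ε)
    (hmom : ∀ f, TestOn D f → ∀ k : ℕ, ∃ C : ℝ, ∀ᶠ n in atTop,
      Integrable (fun h => Lf (δ n) f h ^ (2 * k) * (g1 n h * g2 n h * g3 n h)) (muT P) ∧
      ∫ h, Lf (δ n) f h ^ (2 * k) * (g1 n h * g2 n h * g3 n h) ∂(muT P) ≤
        C * ∫ h, g1 n h * g2 n h * g3 n h ∂(muT P))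
    (r1 : ∃ ρ : ℝ × ℝ → ℝ, TestOn (b.K1 ∩ D) ρ ∧ ∫ x, ρ x = 1)
    (r3 : ∃ ρ : ℝ × ℝ → ℝ, TestOn (b.K3 ∩ D) ρ ∧ ∫ x, ρ x = 1)
    {ψ f0 g : ℝ × ℝ → ℝ} (hψ : TestOn b.box ψ)
    (hf0 : TestOn b.box f0) (hg : TestOn D g)
    (hgK : ∀ x, g x ≠ 0 → x ∈ b.K1 ∨ x ∈ b.K2 ∨ x ∈ b.K3) (k : ℕ) :
    Tendsto (fun n => (∫ h, (Lf (δ n) (lap ψ) h * Lf (δ n) (fun x => f0 x + g x) h ^ (k + 1) +
        κ * (k + 1) * (∫ x, ψ x * (f0 x + g x)) * Lf (δ n) (fun x => f0 x + g x) h ^ k) *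
          (g1 n h * g2 n h * g3 n h) ∂(muT P)) /
          ∫ h, g1 n h * g2 n h * g3 n h ∂(muT P)) atTop (𝓝 0) := by
  have hf : TestOn D (fun x => f0 x + g x) := (hf0.mono hbD).add hg
  have hψD : TestOn D (lap ψ) := hψ.lap.mono hbD
  set c : ℝ := κ * (k + 1) * (∫ x, ψ x * (f0 x + g x)) with hc
  set Y : ℕ → Hg → ℝ := fun n h => Lf (δ n) (lap ψ) h * Lf (δ n) (fun x => f0 x + g x) h ^ (k + 1) +
    c * Lf (δ n) (fun x => f0 x + g x) h ^ k with hY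
  set G : ℕ → Hg → ℝ := fun n h => g1 n h * g2 n h * g3 n h with hG
  have mL : ∀ n (f : ℝ × ℝ → ℝ), Measurable (Lf (δ n) f) := fun n f => measurable_Lf _ f
  have mY : ∀ n, Measurable (Y n) := fun n =>
    ((mL n _).mul ((mL n _).pow_const _)).add (((mL n _).pow_const _).const_mul _)
  -- second moment of `Y`
  obtain ⟨c1, m1⟩ := hmom (lap ψ) hψD 2
  obtain ⟨c2, m2⟩ := hmom _ hf (2 * (k + 1))
  obtain ⟨c3, m3⟩ := hmom _ hf k
  obtain ⟨C', H1', H2', H3', ν1', ν2', ν3', hC', e1', e2', e3', hle', hpos', hd'⟩ := hsh 1 one_pos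
  have mG : ∀ᶠ n in atTop, Measurable (G n) := by
    filter_upwards [e1'.lg, e2'.lg, e3'.lg] with n a1 a2 a3
    exact (a1.measurable.mul a2.measurable).mul a3.measurable
  have hG0 : ∀ᶠ n in atTop, ∀ h, 0 ≤ G n h := by
    filter_upwards [e1'.g0, e2'.g0, e3'.g0] with n a1 a2 a3 h
    exact mul_nonneg (mul_nonneg (a1 h) (a2 h)) (a3 h)
  set CY : ℝ := |c1| + |c2| + 2 * c ^ 2 * |c3| with hCY
  have hCY0 : 0 ≤ CY := by positivity
  have hYG : ∀ᶠ n in atTop, Integrable (fun h => Y n h ^ 2 * G n h) (muT P) ∧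
      ∫ h, Y n h ^ 2 * G n h ∂(muT P) ≤ CY * ∫ h, G n h ∂(muT P) := by
    filter_upwards [m1, m2, m3, hint, mG, hG0] with n a1 a2 a3 a4 a5 a6
    exact sq_mom (mL n _) (mL n _) a5 a1 a2 a3 a6
  rw [Metric.tendsto_nhds]
  intro η hη
  -- choice of the shields
  obtain ⟨ε, hε, hε1, hε2⟩ : ∃ ε : ℝ, 0 < ε ∧ ε ≤ 1 / 2 ∧ √CY * √ε ≤ η / 2 := by
    have hc0 : 0 < η / (2 * (√CY + 1)) := by positivity
    refine ⟨min (1 / 2) ((η / (2 * (√CY + 1))) ^ 2), by positivity, min_le_left _ _, ?_⟩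
    have a1 : √(min (1 / 2) ((η / (2 * (√CY + 1))) ^ 2)) ≤ η / (2 * (√CY + 1)) := by
      refine Real.sqrt_le_iff.2 ⟨hc0.le, min_le_right _ _⟩
    calc √CY * √(min (1 / 2) ((η / (2 * (√CY + 1))) ^ 2)) ≤
        √CY * (η / (2 * (√CY + 1))) := mul_le_mul_of_nonneg_left a1 (Real.sqrt_nonneg _)
      _ ≤ (√CY + 1) * (η / (2 * (√CY + 1))) :=
          mul_le_mul_of_nonneg_right (by linarith) hc0.le
      _ = η / 2 := by
          have : √CY + 1 ≠ 0 := by positivity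
          field_simp
  obtain ⟨C, H1, H2, H3, ν1, ν2, ν3, hC, d1, d2, d3, hle, hpos, hd⟩ := hsh ε hε
  set W : ℕ → Hg → ℝ := fun n => WW (g1 n) (g2 n) (g3 n) (H1 n) (H2 n) (H3 n) with hW
  have hWG : ∀ᶠ n in atTop, ∀ h, 0 ≤ W n h ∧ W n h ≤ G n h := by
    filter_upwards [hG0, d1.H0, d2.H0, d3.H0, hle] with n a0 a1 a2 a3 a4 h
    have hH : 0 ≤ H1 n h * H2 n h * H3 n h := mul_nonneg (mul_nonneg (a1 h) (a2 h)) (a3 h)
    have hH1 : H1 n h * H2 n h * H3 n h ≤ 1 := by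
      obtain ⟨b1, b2, b3⟩ := a4 h
      exact mul_le_one₀ (mul_le_one₀ b1 (a2 h) b2) (a3 h) b3
    refine ⟨mul_nonneg (a0 h) hH, ?_⟩
    exact mul_le_of_le_one_right (a0 h) hH1
  have mW : ∀ᶠ n in atTop, Measurable (W n) := by
    filter_upwards [mG, d1.lH, d2.lH, d3.lH] with n a0 a1 a2 a3
    exact a0.mul ((a1.measurable.mul a2.measurable).mul a3.measurable)
  have iW : ∀ᶠ n in atTop, Integrable (W n) (muT P) := by
    filter_upwards [hint, hWG, mW] with n a1 a2 a3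
    exact a1.mono' a3.aestronglyMeasurable (Eventually.of_forall fun h => by
      rw [Real.norm_eq_abs, abs_of_nonneg (a2 h).1]; exact (a2 h).2)
  have hWp : ∀ᶠ n in atTop, 0 < ∫ h, W n h ∂(muT P) := by
    obtain ⟨c0, hc0, h0⟩ := hpos
    filter_upwards [h0, d1.ν0, d2.ν0, d3.ν0] with n a1 a2 a3 a4
    exact lt_of_lt_of_le (by positivity) a1
  have hGW : ∀ᶠ n in atTop, ∫ h, G n h ∂(muT P) ≤ 2 * ∫ h, W n h ∂(muT P) := by
    filter_upwards [hd, hint, iW, hG0] with n a1 a2 a3 a4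
    rw [integral_sub a2 a3] at a1
    have hI : 0 ≤ ∫ h, G n h ∂(muT P) := integral_nonneg a4
    have h2 : ε * ∫ h, G n h ∂(muT P) ≤ 1 / 2 * ∫ h, G n h ∂(muT P) :=
      mul_le_mul_of_nonneg_right hε1 hI
    have h3 : ∫ h, G n h ∂(muT P) - ∫ h, W n h ∂(muT P) ≤ ε * ∫ h, G n h ∂(muT P) := a1
    linarith
  have hres := adapt hP hA0 hA hclt hδp hδ hb he hbD hC d1 d2 d3 iW hpos (fun f hf k => ?_) r1 r3
    hψ hf0 hg hgK k
  · have h2 := hres.abs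
    rw [abs_zero] at h2
    have h3 := (Metric.tendsto_nhds.1 h2) (η / 2) (by positivity)
    filter_upwards [h3, hYG, hWG, mW, mG, hint, hd, hWp, iW, hpos.choose_spec.2, m1, m2, m3] with
      n b1 b2 b3 b4 b5 b6 b7 b8 b9 b10 q1 q2 q3
    rw [Real.dist_eq, sub_zero, abs_abs] at b1
    have h4 := cmp_weights (μ := muT P) (G := G n) (W := W n) (Y := Y n) (fun h => (b3 h).1)
      (fun h => (b3 h).2) b5 b4 (mY n) b6 b2.1 hε.le hCY0 b7 b2.2 b8
    rw [Real.dist_eq, sub_zero]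
    refine lt_of_le_of_lt h4 ?_
    have e1 : (∫ h, Y n h * W n h ∂(muT P)) / ∫ h, W n h ∂(muT P) =
        (∫ h, Lf (δ n) (lap ψ) h * Lf (δ n) (fun x => f0 x + g x) h ^ (k + 1) *
        WW (g1 n) (g2 n) (g3 n) (H1 n) (H2 n) (H3 n) h ∂(muT P) +
      κ * (k + 1) * (∫ x, ψ x * (f0 x + g x)) *
        ∫ h, Lf (δ n) (fun x => f0 x + g x) h ^ k *
          WW (g1 n) (g2 n) (g3 n) (H1 n) (H2 n) (H3 n) h ∂(muT P)) /
          ∫ h, WW (g1 n) (g2 n) (g3 n) (H1 n) (H2 n) (H3 n) h ∂(muT P) := by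
      congr 1
      rw [← integral_const_mul, ← integral_add]
      · refine integral_congr_ae (Eventually.of_forall fun h => ?_)
        simp only [hY, hW]
        ring
      · exact int_dom1 b3 b4 (mL n _) (mL n _) q1.1 q2.1 b6
      · exact (int_dom2 b3 b4 (mL n _) q3.1 b6).const_mul _
    rw [e1]
    linarith
  · obtain ⟨C1, hC1⟩ := hmom f hf k
    refine ⟨2 * |C1|, ?_⟩
    filter_upwards [hC1, hWG, mW, hGW, hG0, mG] with n a1 a2 a3 a4 a5 a6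
    have hk : ∀ h, 0 ≤ Lf (δ n) f h ^ (2 * k) := fun h => Even.pow_nonneg (even_two_mul k) _
    have iL : Integrable (fun h => Lf (δ n) f h ^ (2 * k) * W n h) (muT P) :=
      a1.1.mono' (((mL n _).pow_const _).mul a3).aestronglyMeasurable
        (Eventually.of_forall fun h => by
          rw [Real.norm_eq_abs, abs_of_nonneg (mul_nonneg (hk h) (a2 h).1)]
          exact mul_le_mul_of_nonneg_left (a2 h).2 (hk h))
    refine ⟨iL, ?_⟩
    have hI : 0 ≤ ∫ h, G n h ∂(muT P) := integral_nonneg a5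
    calc ∫ h, Lf (δ n) f h ^ (2 * k) * W n h ∂(muT P) ≤
        ∫ h, Lf (δ n) f h ^ (2 * k) * G n h ∂(muT P) :=
          integral_mono iL a1.1 fun h => mul_le_mul_of_nonneg_left (a2 h).2 (hk h)
      _ ≤ C1 * ∫ h, G n h ∂(muT P) := a1.2
      _ ≤ |C1| * ∫ h, G n h ∂(muT P) := mul_le_mul_of_nonneg_right (le_abs_self _) hI
      _ ≤ |C1| * (2 * ∫ h, W n h ∂(muT P)) := mul_le_mul_of_nonneg_left a4 (abs_nonneg _)
      _ = 2 * |C1| * ∫ h, W n h ∂(muT P) := by ring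

end

end Vale.Agent.P153.SDAD
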