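import Vale.Agent.P153.R2.SDAD.NoH

/-!
P153, block SDAD (helper435): versions of `adapt` and `adaptG` which are uniform in the data of the
arms: for every `ε` there is `δ₀` such that for all meshes `δ < δ₀` and all admissible data the
Schwinger-Dyson equations hold up to `ε`.
-/

namespace Vale.Agent.P153.SDAD

open Finset Filter Topology MeasureTheory
open Vale.Agent.P145.PT (Sm TestOn lap)
open Vale.Agent.P153 Vale.Agent.P153.F Vale.Agent.P153.F.SD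
open Vale.Agent.P153.GFF (Csts pos var2)

/-- One arm, one mesh. -/
structure ArmS (δ : ℝ) (K D : Set (ℝ × ℝ)) (A : Finset Pt) (g H : Hg → ℝ) (ν C : ℝ) : Prop where
  nbK : ∀ x ∈ nbs A, x ∈ lat δ K
  AD : ∀ x ∈ A, δ • pos x ∉ D
  lg : Lc (A : Set Pt) g
  lH : Lc (lat δ K \ (A : Set Pt)) H
  g0 : ∀ h, 0 ≤ g h
  H0 : ∀ h, 0 ≤ H h
  ν0 : 0 < ν
  one : ∀ h, Lip h → H h * ker A g h ≤ C * ν

theorem ArmS.mono {δ : ℝ} {K D : Set (ℝ × ℝ)} {A : Finset Pt} {g H : Hg → ℝ} {ν C C' : ℝ}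
    (d : ArmS δ K D A g H ν C) (h : C ≤ C') : ArmS δ K D A g H ν C' :=
  ⟨d.nbK, d.AD, d.lg, d.lH, d.g0, d.H0, d.ν0, fun a ha =>
    (d.one a ha).trans (mul_le_mul_of_nonneg_right h d.ν0.le)⟩

theorem armD_of {δ : ℕ → ℝ} {K D : Set (ℝ × ℝ)} {A : ℕ → Finset Pt} {g H : ℕ → Hg → ℝ}
    {ν : ℕ → ℝ} {C : ℝ} (h : ∀ᶠ n in atTop, ArmS (δ n) K D (A n) (g n) (H n) (ν n) C) :
    ArmD δ K D A g H ν C :=
  ⟨h.mono fun n h => h.nbK, h.mono fun n h => h.AD, h.mono fun n h => h.lg,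
    h.mono fun n h => h.lH, h.mono fun n h => h.g0, h.mono fun n h => h.H0,
    h.mono fun n h => h.ν0, h.mono fun n h => h.one⟩

/-- The observable of the Schwinger-Dyson equation for the moments. -/
noncomputable def YY (κ δ : ℝ) (ψ f : ℝ × ℝ → ℝ) (k : ℕ) (h : Hg) : ℝ :=
  Lf δ (lap ψ) h * Lf δ f h ^ (k + 1) + κ * (k + 1) * (∫ x, ψ x * f x) * Lf δ f h ^ k

variable {P : Measure Fld} {b : PW} {D : Set (ℝ × ℝ)}

/-- The moments, one mesh, with thresholds and constants depending on the test function. -/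
def MomS (P : Measure Fld) (D : Set (ℝ × ℝ)) (dm CM : (ℝ × ℝ → ℝ) → ℕ → ℝ) (δ : ℝ)
    (G : Hg → ℝ) : Prop :=
  ∀ f, TestOn D f → ∀ k : ℕ, δ ≤ dm f k →
    Integrable (fun h => Lf δ f h ^ (2 * k) * G h) (muT P) ∧
      ∫ h, Lf δ f h ^ (2 * k) * G h ∂(muT P) ≤ CM f k * ∫ h, G h ∂(muT P)

/-- The shields, one mesh. -/
def ShieldsS (P : Measure Fld) (δ : ℝ) (b : PW) (D : Set (ℝ × ℝ)) (A1 A2 A3 : Finset Pt)
    (g1 g2 g3 : Hg → ℝ) (C c0 ε : ℝ) : Prop :=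
  ∃ (H1 H2 H3 : Hg → ℝ) (ν1 ν2 ν3 : ℝ),
    ArmS δ b.K1 D A1 g1 H1 ν1 C ∧ ArmS δ b.K2 D A2 g2 H2 ν2 C ∧ ArmS δ b.K3 D A3 g3 H3 ν3 C ∧
    (∀ h, H1 h ≤ 1 ∧ H2 h ≤ 1 ∧ H3 h ≤ 1) ∧
    c0 * (ν1 * ν2 * ν3) ≤ ∫ h, WW g1 g2 g3 H1 H2 H3 h ∂(muT P) ∧
    ∫ h, (g1 h * g2 h * g3 h - WW g1 g2 g3 H1 H2 H3 h) ∂(muT P) ≤
      ε * ∫ h, g1 h * g2 h * g3 h ∂(muT P)

theorem shields_of {δ : ℕ → ℝ} {A1 A2 A3 : ℕ → Finset Pt} {g1 g2 g3 : ℕ → Hg → ℝ} {C c0 ε : ℝ}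
    (hC : 0 < C) (hc0 : 0 < c0)
    (h : ∀ᶠ n in atTop, ShieldsS P (δ n) b D (A1 n) (A2 n) (A3 n) (g1 n) (g2 n) (g3 n) C c0 ε) :
    Shields P δ b D A1 A2 A3 g1 g2 g3 ε := by
  classical
  set H1 : ℕ → Hg → ℝ := fun n => if hn : ShieldsS P (δ n) b D (A1 n) (A2 n) (A3 n) (g1 n) (g2 n)
    (g3 n) C c0 ε then hn.choose else 0 with hH1
  set H2 : ℕ → Hg → ℝ := fun n => if hn : ShieldsS P (δ n) b D (A1 n) (A2 n) (A3 n) (g1 n) (g2 n)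
    (g3 n) C c0 ε then hn.choose_spec.choose else 0 with hH2
  set H3 : ℕ → Hg → ℝ := fun n => if hn : ShieldsS P (δ n) b D (A1 n) (A2 n) (A3 n) (g1 n) (g2 n)
    (g3 n) C c0 ε then hn.choose_spec.choose_spec.choose else 0 with hH3
  set ν1 : ℕ → ℝ := fun n => if hn : ShieldsS P (δ n) b D (A1 n) (A2 n) (A3 n) (g1 n) (g2 n)
    (g3 n) C c0 ε then hn.choose_spec.choose_spec.choose_spec.choose else 0 with hν1
  set ν2 : ℕ → ℝ := fun n => if hn : ShieldsS P (δ n) b D (A1 n) (A2 n) (A3 n) (g1 n) (g2 n)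
    (g3 n) C c0 ε then hn.choose_spec.choose_spec.choose_spec.choose_spec.choose else 0 with hν2
  set ν3 : ℕ → ℝ := fun n => if hn : ShieldsS P (δ n) b D (A1 n) (A2 n) (A3 n) (g1 n) (g2 n)
    (g3 n) C c0 ε then hn.choose_spec.choose_spec.choose_spec.choose_spec.choose_spec.choose
      else 0 with hν3
  have key : ∀ᶠ n in atTop, ArmS (δ n) b.K1 D (A1 n) (g1 n) (H1 n) (ν1 n) C ∧
      ArmS (δ n) b.K2 D (A2 n) (g2 n) (H2 n) (ν2 n) C ∧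
      ArmS (δ n) b.K3 D (A3 n) (g3 n) (H3 n) (ν3 n) C ∧
      (∀ h, H1 n h ≤ 1 ∧ H2 n h ≤ 1 ∧ H3 n h ≤ 1) ∧
      c0 * (ν1 n * ν2 n * ν3 n) ≤
        ∫ h, WW (g1 n) (g2 n) (g3 n) (H1 n) (H2 n) (H3 n) h ∂(muT P) ∧
      ∫ h, (g1 n h * g2 n h * g3 n h -
        WW (g1 n) (g2 n) (g3 n) (H1 n) (H2 n) (H3 n) h) ∂(muT P) ≤
        ε * ∫ h, g1 n h * g2 n h * g3 n h ∂(muT P) := by
    filter_upwards [h] with n hn
    simp only [hH1, hH2, hH3, hν1, hν2, hν3, dif_pos hn]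
    exact hn.choose_spec.choose_spec.choose_spec.choose_spec.choose_spec.choose_spec
  exact ⟨C, H1, H2, H3, ν1, ν2, ν3, hC, armD_of (key.mono fun n h => h.1),
    armD_of (key.mono fun n h => h.2.1), armD_of (key.mono fun n h => h.2.2.1),
    key.mono fun n h => h.2.2.2.1, ⟨c0, hc0, key.mono fun n h => h.2.2.2.2.1⟩,
    key.mono fun n h => h.2.2.2.2.2⟩

/-- **Uniform Schwinger-Dyson equations under the density `g1 g2 g3`.** `C ε`, `c0 ε`, `ds ε` are the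
constants and the threshold for the shields of deficit `ε`; `dm f k`, `CM f k` the thresholds and
constants of the moments. -/
theorem adaptU (hP : GFF.Plane P) {A0 : ℝ} (hA0 : 0 ≤ A0)
    (hA : ∀ x : ℤ × ℤ, var2 P x ≤ A0 * (1 + |(x.1 : ℝ)| + |(x.2 : ℝ)|)) {κ : ℝ}
    (hclt : CLT P κ) (hb : b.x0 + b.y0 < b.s0) (he : 0 < b.e) (hbD : b.box ⊆ D)
    {C c0 ds : ℝ → ℝ} (hC : ∀ ε, 0 < ε → 0 < C ε) (hc0 : ∀ ε, 0 < ε → 0 < c0 ε)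
    (hds : ∀ ε, 0 < ε → 0 < ds ε) {dm CM : (ℝ × ℝ → ℝ) → ℕ → ℝ} (hdm : ∀ f k, 0 < dm f k)
    (r1 : ∃ ρ : ℝ × ℝ → ℝ, TestOn (b.K1 ∩ D) ρ ∧ ∫ x, ρ x = 1)
    (r3 : ∃ ρ : ℝ × ℝ → ℝ, TestOn (b.K3 ∩ D) ρ ∧ ∫ x, ρ x = 1)
    {ψ f0 g : ℝ × ℝ → ℝ} (hψ : TestOn b.box ψ)
    (hf0 : TestOn b.box f0) (hg : TestOn D g)
    (hgK : ∀ x, g x ≠ 0 → x ∈ b.K1 ∨ x ∈ b.K2 ∨ x ∈ b.K3) (k : ℕ) {η : ℝ} (hη : 0 < η) :
    ∃ δ₀ : ℝ, 0 < δ₀ ∧ ∀ δ : ℝ, 0 < δ → δ < δ₀ → ∀ (A1 A2 A3 : Finset Pt) (g1 g2 g3 : Hg → ℝ),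
      Integrable (fun h => g1 h * g2 h * g3 h) (muT P) →
      (∀ ε : ℝ, 0 < ε → δ ≤ ds ε → ShieldsS P δ b D A1 A2 A3 g1 g2 g3 (C ε) (c0 ε) ε) →
      MomS P D dm CM δ (fun h => g1 h * g2 h * g3 h) →
      |(∫ h, YY κ δ ψ (fun x => f0 x + g x) k h * (g1 h * g2 h * g3 h) ∂(muT P)) /
        ∫ h, g1 h * g2 h * g3 h ∂(muT P)| ≤ η := by
  by_contra hcon
  push Not at hcon
  choose δ h1 h2 A1 A2 A3 g1 g2 g3 h3 h4 h5 h6 using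
    fun n : ℕ => hcon (1 / ((n : ℝ) + 1)) (by positivity)
  have hδ0 : Tendsto δ atTop (𝓝 0) := squeeze_zero (fun n => (h1 n).le) (fun n => (h2 n).le)
    tendsto_one_div_add_atTop_nhds_zero_nat
  have hδ : Tendsto δ atTop (𝓝[>] 0) := tendsto_nhdsWithin_iff.2 ⟨hδ0,
    Eventually.of_forall fun n => h1 n⟩
  have hsmall : ∀ r : ℝ, 0 < r → ∀ᶠ n in atTop, δ n ≤ r := fun r hr =>
    hδ0.eventually (ge_mem_nhds hr)
  have hres := adaptG (A1 := A1) (A2 := A2) (A3 := A3) (g1 := g1) (g2 := g2) (g3 := g3)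
    hP hA0 hA hclt h1 hδ hb he hbD (Eventually.of_forall h3)
    (fun ε hε => shields_of (hC ε hε) (hc0 ε hε)
      ((hsmall _ (hds ε hε)).mono fun n hn => h4 n ε hε hn))
    (fun f hf k => ⟨CM f k, (hsmall _ (hdm f k)).mono fun n hn => h5 n f hf k hn⟩)
    r1 r3 hψ hf0 hg hgK k
  obtain ⟨n, hn⟩ := ((Metric.tendsto_nhds.1 hres) η hη).exists
  rw [Real.dist_eq, sub_zero] at hn
  exact absurd (h6 n) (not_lt.2 hn.le)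

end Vale.Agent.P153.SDAD
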